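import Vale.Agent.P224.Clifford.Pins

/-!
# P224: the cone over the normal map covers the ball
-/

noncomputable section

open MeasureTheory Set Filter Topology
open scoped RealInnerProductSpace ENNReal ContDiff

namespace Vale.Agent.P224.Clifford

open Vale.Agent.P224.Gap (sphereArea sphereArea_pos)

/-- The coordinates `(u, t, r)`. -/
abbrev W (m : ℕ) := EuclideanSpace ℝ (Fin m ⊕ Fin 2)

namespace Cone

variable (m : ℕ)

/-- The chart coordinates. -/
def head : W m →L[ℝ] Euc m :=
  ((EuclideanSpace.equiv (Fin m) ℝ).symm : (Fin m → ℝ) →L[ℝ] Euc m).comp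
    (ContinuousLinearMap.pi fun a => EuclideanSpace.proj (Sum.inl a))

/-- The arc length coordinate. -/
def tc : W m →L[ℝ] ℝ := EuclideanSpace.proj (Sum.inr 0)

/-- The radial coordinate. -/
def rc : W m →L[ℝ] ℝ := EuclideanSpace.proj (Sum.inr 1)

/-- Reindexing of the ambient space. -/
def tau : Euc (m + 2) ≃ₗᵢ[ℝ] W m :=
  LinearIsometryEquiv.piLpCongrLeft 2 ℝ ℝ finSumFinEquiv.symm

variable {m} {ι : Type} (F : Immersion m ι) (j : ι)

/-- The cone over the normal map. -/
def psi (w : W m) : Euc (m + 2) :=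
  rc m w • (Real.cos (tc m w) • F.pos j (head m w) + Real.sin (tc m w) • F.nrm j (head m w))

/-- Its derivative. -/
def psi' (w : W m) : W m →L[ℝ] Euc (m + 2) :=
  rc m w • ((Real.cos (tc m w) • (fderiv ℝ (F.pos j) (head m w)).comp (head m)
      + (-Real.sin (tc m w) • tc m).smulRight (F.pos j (head m w)))
    + (Real.sin (tc m w) • (fderiv ℝ (F.nrm j) (head m w)).comp (head m)
      + (Real.cos (tc m w) • tc m).smulRight (F.nrm j (head m w))))
    + (rc m).smulRight (Real.cos (tc m w) • F.pos j (head m w)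
      + Real.sin (tc m w) • F.nrm j (head m w))

theorem hasFDerivAt_pos {u : Euc m} (hu : u ∈ F.dom j) :
    HasFDerivAt (F.pos j) (fderiv ℝ (F.pos j) u) u :=
  (((F.smooth_pos j).differentiableOn (by norm_num)).differentiableAt
    ((F.isOpen_dom j).mem_nhds hu)).hasFDerivAt

theorem hasFDerivAt_nrm {u : Euc m} (hu : u ∈ F.dom j) :
    HasFDerivAt (F.nrm j) (fderiv ℝ (F.nrm j) u) u :=
  (((F.smooth_nrm j).differentiableOn (by norm_num)).differentiableAt
    ((F.isOpen_dom j).mem_nhds hu)).hasFDerivAt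

theorem hasFDerivAt_psi {w : W m} (hw : head m w ∈ F.dom j) :
    HasFDerivAt (psi F j) (psi' F j w) w := by
  have hA : HasFDerivAt (fun x => F.pos j (head m x))
      ((fderiv ℝ (F.pos j) (head m w)).comp (head m)) w :=
    (hasFDerivAt_pos F j hw).comp w (head m).hasFDerivAt
  have hB : HasFDerivAt (fun x => F.nrm j (head m x))
      ((fderiv ℝ (F.nrm j) (head m w)).comp (head m)) w :=
    (hasFDerivAt_nrm F j hw).comp w (head m).hasFDerivAt
  exact (rc m).hasFDerivAt.smul
    (((tc m).hasFDerivAt.cos.smul hA).add ((tc m).hasFDerivAt.sin.smul hB))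

theorem inner_pos_deriv {u : Euc m} (hu : u ∈ F.dom j) (v : Euc m) :
    ⟪F.pos j u, fderiv ℝ (F.pos j) u v⟫ = 0 ∧ ⟪F.nrm j u, fderiv ℝ (F.nrm j) u v⟫ = 0 := by
  have key : ∀ f : Euc m → Euc (m + 2), HasFDerivAt f (fderiv ℝ f u) u →
      (∀ x ∈ F.dom j, ‖f x‖ = 1) → ⟪f u, fderiv ℝ f u v⟫ = 0 := by
    intro f hf h1
    have h := hf.inner ℝ hf
    have hc : (fun x => ⟪f x, f x⟫) =ᶠ[𝓝 u] fun _ => (1 : ℝ) := by
      filter_upwards [(F.isOpen_dom j).mem_nhds hu] with x hx
      rw [real_inner_self_eq_norm_sq, h1 x hx, one_pow]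
    have := congrArg (fun L : Euc m →L[ℝ] ℝ => L v)
      ((h.congr_of_eventuallyEq hc.symm).unique (hasFDerivAt_const (1 : ℝ) u))
    simp [fderivInnerCLM_apply, real_inner_comm (f u)] at this
    linarith [real_inner_comm (f u) (fderiv ℝ f u v)]
  exact ⟨key _ (hasFDerivAt_pos F j hu) (F.norm_pos j),
    key _ (hasFDerivAt_nrm F j hu) (F.norm_nrm j)⟩

theorem inner_deriv_deriv {u : Euc m} (hu : u ∈ F.dom j) (v v' : Euc m) :
    ⟪fderiv ℝ (F.pos j) u v, fderiv ℝ (F.nrm j) u v'⟫
      = -⟪fderiv ℝ (fderiv ℝ (F.pos j)) u v v', F.nrm j u⟫ := by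
  have h2 : ContDiffAt ℝ 2 (F.pos j) u :=
    ((F.smooth_pos j).contDiffAt ((F.isOpen_dom j).mem_nhds hu)).of_le
      (WithTop.coe_le_coe.2 le_top)
  have hsym : fderiv ℝ (fderiv ℝ (F.pos j)) u v v' = fderiv ℝ (fderiv ℝ (F.pos j)) u v' v :=
    (h2.isSymmSndFDerivAt (by simp)).eq v v'
  have hD : HasFDerivAt (fderiv ℝ (F.pos j)) (fderiv ℝ (fderiv ℝ (F.pos j)) u) u :=
    ((h2.fderiv_right (m := 1) (by norm_num)).differentiableAt (by norm_num)).hasFDerivAt
  have h := ((hD.clm_apply (hasFDerivAt_const v u)).inner ℝ (hasFDerivAt_nrm F j hu))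
  have hc : (fun x => ⟪fderiv ℝ (F.pos j) x v, F.nrm j x⟫) =ᶠ[𝓝 u] fun _ => (0 : ℝ) := by
    filter_upwards [(F.isOpen_dom j).mem_nhds hu] with x hx
    exact F.deriv_nrm j x hx v
  have := congrArg (fun L : Euc m →L[ℝ] ℝ => L v')
    ((h.congr_of_eventuallyEq hc.symm).unique (hasFDerivAt_const (0 : ℝ) u))
  simp [fderivInnerCLM_apply, ← hsym] at this
  linarith

theorem gram_det_pos {u : Euc m} (hu : u ∈ F.dom j) : 0 < (F.gram j u).det := by
  refine Matrix.PosDef.det_pos ?_
  refine Matrix.PosDef.of_dotProduct_mulVec_pos ?_ fun x hx => ?_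
  · ext a b
    simp [Immersion.gram, firstForm, real_inner_comm]
  · set v : Euc m := ∑ a, x a • Immersion.basisVec m a
    have hv : star x ⬝ᵥ (F.gram j u).mulVec x
        = ⟪fderiv ℝ (F.pos j) u v, fderiv ℝ (F.pos j) u v⟫ := by
      simp only [v, map_sum, map_smul, sum_inner, inner_sum, real_inner_smul_left,
        real_inner_smul_right, dotProduct, Matrix.mulVec, Immersion.gram, firstForm, star_trivial,
        Finset.mul_sum]
      exact Finset.sum_congr rfl fun a _ => Finset.sum_congr rfl fun b _ => by rw [real_inner_comm]; ring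
    rw [hv, real_inner_self_eq_norm_sq]
    refine pow_pos (norm_pos_iff.2 fun h0 => hx ?_) 2
    have hv0 : v = 0 := F.immersive j u hu (h0.trans (map_zero _).symm)
    funext a
    have := congrArg (fun y : Euc m => y a) hv0
    simpa [v, Immersion.basisVec, PiLp.single_apply, Pi.single_apply] using this

/-- The standard basis. -/
abbrev ee (c : Fin m ⊕ Fin 2) : W m := EuclideanSpace.single c 1

theorem head_ee : (∀ a, head m (ee (Sum.inl a)) = Immersion.basisVec m a) ∧
    ∀ q, head m (ee (Sum.inr q)) = 0 := by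
  constructor
  · intro a
    ext b
    simp [head, ee, Immersion.basisVec, PiLp.single_apply]
  · intro q
    ext b
    simp [head, ee]

theorem tc_ee : (∀ a : Fin m, tc m (ee (Sum.inl a)) = 0) ∧ tc m (ee (Sum.inr 0)) = 1 ∧
    tc m (ee (Sum.inr 1)) = 0 := by
  simp [tc]

theorem rc_ee : (∀ a : Fin m, rc m (ee (Sum.inl a)) = 0) ∧ rc m (ee (Sum.inr 0)) = 0 ∧
    rc m (ee (Sum.inr 1)) = 1 := by
  simp [rc]

/-- The determinant of the derivative. -/
theorem abs_det_psi' {w : W m} (hw : head m w ∈ F.dom j) :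
    |((tau m).toContinuousLinearEquiv.toContinuousLinearMap.comp (psi' F j w)).det|
        * F.density j (head m w)
      = |rc m w| ^ (m + 1) * |(F.normalForm j (head m w) (tc m w)).det| := by
  classical
  set u := head m w with hu
  set c := Real.cos (tc m w) with hc
  set s := Real.sin (tc m w) with hs
  set r := rc m w with hr
  set f := F.pos j u with hf
  set n := F.nrm j u with hn
  let g₁ : Euc (m + 2) := (-s) • f + c • n
  let g₂ : Euc (m + 2) := c • f + s • n
  let col : Fin m ⊕ Fin 2 → Euc (m + 2) :=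
    Sum.elim (fun a => fderiv ℝ (F.pos j) u (Immersion.basisVec m a)) ![g₁, g₂]
  let Q : Matrix (Fin m ⊕ Fin 2) (Fin m ⊕ Fin 2) ℝ := Matrix.of fun i d => tau m (col d) i
  let M : Matrix (Fin m ⊕ Fin 2) (Fin m ⊕ Fin 2) ℝ :=
    Matrix.of fun i d => tau m (psi' F j w (ee d)) i
  have hdet : ((tau m).toContinuousLinearEquiv.toContinuousLinearMap.comp (psi' F j w)).det
      = M.det := by
    rw [ContinuousLinearMap.det,
      ← LinearMap.det_toMatrix (EuclideanSpace.basisFun (Fin m ⊕ Fin 2) ℝ).toBasis]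
    congr 1
  have hinner : ∀ (x y : Euc (m + 2)), ∑ i, tau m x i * tau m y i = ⟪x, y⟫ := by
    intro x y
    rw [← (tau m).inner_map_map x y, PiLp.inner_apply]
    simp [mul_comm]
  have hff : ⟪f, f⟫ = 1 := by rw [real_inner_self_eq_norm_sq, F.norm_pos j u hw, one_pow]
  have hnn : ⟪n, n⟫ = 1 := by rw [real_inner_self_eq_norm_sq, F.norm_nrm j u hw, one_pow]
  have hfn : ⟪f, n⟫ = 0 := F.pos_nrm j u hw
  have hnf : ⟪n, f⟫ = 0 := by rw [real_inner_comm]; exact hfn
  have hfA : ∀ v, ⟪f, fderiv ℝ (F.pos j) u v⟫ = 0 := fun v => (inner_pos_deriv F j hw v).1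
  have hAf : ∀ v, ⟪fderiv ℝ (F.pos j) u v, f⟫ = 0 := fun v => by rw [real_inner_comm]; exact hfA v
  have hAn : ∀ v, ⟪fderiv ℝ (F.pos j) u v, n⟫ = 0 := F.deriv_nrm j u hw
  have hnA : ∀ v, ⟪n, fderiv ℝ (F.pos j) u v⟫ = 0 := fun v => by rw [real_inner_comm]; exact hAn v
  have hcs : c * c + s * s = 1 := by
    have := Real.cos_sq_add_sin_sq (tc m w)
    rw [← hc, ← hs] at this
    linarith
  have hAg₁ : ∀ v, ⟪fderiv ℝ (F.pos j) u v, g₁⟫ = 0 := fun v => by
    rw [inner_add_right, real_inner_smul_right, real_inner_smul_right, hAf, hAn]; ring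
  have hAg₂ : ∀ v, ⟪fderiv ℝ (F.pos j) u v, g₂⟫ = 0 := fun v => by
    rw [inner_add_right, real_inner_smul_right, real_inner_smul_right, hAf, hAn]; ring
  have hgA₁ : ∀ v, ⟪g₁, fderiv ℝ (F.pos j) u v⟫ = 0 := fun v => by
    rw [real_inner_comm]; exact hAg₁ v
  have hgA₂ : ∀ v, ⟪g₂, fderiv ℝ (F.pos j) u v⟫ = 0 := fun v => by
    rw [real_inner_comm]; exact hAg₂ v
  have h11 : ⟪g₁, g₁⟫ = 1 := by
    simp only [g₁, inner_add_left, inner_add_right, real_inner_smul_left, real_inner_smul_right,
      hff, hnn, hfn, hnf]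
    linear_combination hcs
  have h22 : ⟪g₂, g₂⟫ = 1 := by
    simp only [g₂, inner_add_left, inner_add_right, real_inner_smul_left, real_inner_smul_right,
      hff, hnn, hfn, hnf]
    linear_combination hcs
  have h12 : ⟪g₁, g₂⟫ = 0 := by
    simp only [g₁, g₂, inner_add_left, inner_add_right, real_inner_smul_left, real_inner_smul_right,
      hff, hnn, hfn, hnf]
    ring
  have h21 : ⟪g₂, g₁⟫ = 0 := by rw [real_inner_comm]; exact h12
  have hQQ : Q.transpose * Q = Matrix.fromBlocks (F.gram j u) 0 0 1 := by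
    ext i d
    rw [Matrix.mul_apply]
    simp only [Q, Matrix.transpose_apply, Matrix.of_apply, hinner]
    rcases i with a | p <;> rcases d with b | q
    · simp [col, Immersion.gram, firstForm]
    · fin_cases q <;> simp [col, hAg₁, hAg₂]
    · fin_cases p <;> simp [col, hgA₁, hgA₂]
    · fin_cases p <;> fin_cases q <;> simp [col, h11, h12, h21, h22, -inner_self_eq_norm_sq_to_K]
  have hQ : |Q.det| = F.density j u := by
    have h := congrArg Matrix.det hQQ
    rw [Matrix.det_mul, Matrix.det_transpose, Matrix.det_fromBlocks_zero₁₂, Matrix.det_one,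
      mul_one] at h
    rw [Immersion.density, ← h, Real.sqrt_mul_self_eq_abs]
  have hd₁ : ∀ b, psi' F j w (ee (Sum.inl b)) = r • (c • fderiv ℝ (F.pos j) u (Immersion.basisVec m b)
      + s • fderiv ℝ (F.nrm j) u (Immersion.basisVec m b)) := by
    intro b
    simp [psi', head_ee.1 b, tc_ee.1 b, rc_ee.1 b, ← hu, ← hc, ← hs, ← hr]
  have hd₂ : psi' F j w (ee (Sum.inr 0)) = r • g₁ := by
    simp [psi', head_ee.2 0, tc_ee.2.1, rc_ee.2.1, g₁, ← hu, ← hc, ← hs, ← hr, ← hf, ← hn]
  have hd₃ : psi' F j w (ee (Sum.inr 1)) = g₂ := by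
    simp [psi', head_ee.2 1, tc_ee.2.2, rc_ee.2.2, g₂, ← hu, ← hc, ← hs, ← hr, ← hf, ← hn]
  obtain ⟨C, hC⟩ : ∃ C, Q.transpose * M = Matrix.fromBlocks (r • F.normalForm j u (tc m w)) 0 C
      (Matrix.diagonal ![r, 1]) := by
    refine ⟨(Q.transpose * M).toBlocks₂₁, ?_⟩
    ext i d
    rcases i with a | p <;> rcases d with b | q
    · rw [Matrix.mul_apply]
      simp only [Q, M, Matrix.transpose_apply, Matrix.of_apply, hinner, hd₁]
      simp [col, inner_add_right, real_inner_smul_right, inner_deriv_deriv F j hw,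
        Immersion.normalForm, Immersion.gram, firstForm, Immersion.second, secondForm, secondDeriv, dirDeriv, ← hc, ← hs, ← hn]
      ring
    · rw [Matrix.mul_apply]
      simp only [Q, M, Matrix.transpose_apply, Matrix.of_apply, hinner]
      fin_cases q <;> simp [col, hd₂, hd₃, real_inner_smul_right, hAg₁, hAg₂]
    · simp [Matrix.toBlocks₂₁]
    · rw [Matrix.mul_apply]
      simp only [Q, M, Matrix.transpose_apply, Matrix.of_apply, hinner]
      fin_cases p <;> fin_cases q <;>
        simp [col, hd₂, hd₃, real_inner_smul_right, h11, h12, h21, h22, -inner_self_eq_norm_sq_to_K]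
  have h := congrArg Matrix.det hC
  rw [Matrix.det_mul, Matrix.det_transpose, Matrix.det_fromBlocks_zero₁₂, Matrix.det_smul,
    Matrix.det_diagonal, Fin.prod_univ_two, Fintype.card_fin] at h
  simp only [Matrix.cons_val_zero, Matrix.cons_val_one, mul_one] at h
  rw [hdet, ← hQ, ← abs_mul, mul_comm, h, abs_mul, abs_mul, abs_pow, pow_succ]
  ring

/-! ### Measurability -/

theorem continuousOn_gram (a b : Fin m) :
    ContinuousOn (fun u => F.gram j u a b) (F.dom j) := by
  have h := (F.smooth_pos j).continuousOn_fderiv_of_isOpen (F.isOpen_dom j) (by norm_num)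
  exact (h.clm_apply continuousOn_const).inner (h.clm_apply continuousOn_const)

theorem continuousOn_second (a b : Fin m) :
    ContinuousOn (fun u => F.second j u a b) (F.dom j) := by
  have h1 : ContDiffOn ℝ ∞ (fderiv ℝ (F.pos j)) (F.dom j) :=
    (F.smooth_pos j).fderiv_of_isOpen (F.isOpen_dom j) (by norm_num)
  have h := h1.continuousOn_fderiv_of_isOpen (F.isOpen_dom j) (by norm_num)
  exact ((h.clm_apply continuousOn_const).clm_apply continuousOn_const).inner
    (F.smooth_nrm j).continuousOn

theorem continuousOn_normalForm (a b : Fin m) :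
    ContinuousOn (fun p : Euc m × ℝ => F.normalForm j p.1 p.2 a b) (F.dom j ×ˢ univ) := by
  have hfst : ContinuousOn (fun p : Euc m × ℝ => p.1) (F.dom j ×ˢ univ) :=
    continuous_fst.continuousOn
  have hg := (continuousOn_gram F j a b).comp hfst fun p hp => hp.1
  have hs := (continuousOn_second F j a b).comp hfst fun p hp => hp.1
  exact ((Real.continuous_cos.comp continuous_snd).continuousOn.mul hg).sub
    ((Real.continuous_sin.comp continuous_snd).continuousOn.mul hs)

/-- The parameters before the first focal point. -/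
def before : Set (Euc m × ℝ) := {p | p.1 ∈ F.piece j ∧ F.BeforeFocal j p.1 p.2}

theorem measurableSet_before : MeasurableSet (before F j) := by
  let qf : (Fin m → ℝ) → Euc m × ℝ → ℝ := fun v p =>
    ∑ a, ∑ b, v a * v b * F.normalForm j p.1 p.2 a b
  have hopen : IsOpen (F.dom j ×ˢ (univ : Set ℝ)) := (F.isOpen_dom j).prod isOpen_univ
  have hq : ∀ v, ContinuousOn (qf v) (F.dom j ×ˢ univ) := fun v =>
    continuousOn_finsetSum _ fun a _ => continuousOn_finsetSum _ fun b _ =>
      continuousOn_const.mul (continuousOn_normalForm F j a b)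
  have hv : ∀ p : Euc m × ℝ, (∀ v, 0 ≤ qf v p) ↔
      ∀ v : Fin m → ℚ, 0 ≤ qf (fun a => (v a : ℝ)) p := by
    refine fun p => ⟨fun h v => h _, fun h v => ?_⟩
    have hd : DenseRange fun v : Fin m → ℚ => fun a => (v a : ℝ) :=
      DenseRange.piMap fun _ => Rat.denseRange_cast
    refine hd.induction_on v (isClosed_le continuous_const (by fun_prop)) h
  have heq : before F j = (F.piece j ×ˢ Icc (-(Real.pi / 2)) (Real.pi / 2)) ∩
      ⋂ v : Fin m → ℚ, (F.dom j ×ˢ univ ∩ qf (fun a => (v a : ℝ)) ⁻¹' Iio 0)ᶜ := by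
    ext p
    constructor
    · rintro ⟨hp, ht, hv'⟩
      refine ⟨⟨hp, ht⟩, mem_iInter.2 fun v => ?_⟩
      rintro ⟨-, hlt⟩
      exact absurd (hv' _) (not_le.2 hlt)
    · rintro ⟨⟨hp, ht⟩, hv'⟩
      refine ⟨hp, ht, (hv p).2 fun v => not_lt.1 fun hlt => ?_⟩
      exact mem_iInter.1 hv' v ⟨⟨F.piece_subset j hp, mem_univ _⟩, hlt⟩
  rw [heq]
  exact ((F.measurable_piece j).prod measurableSet_Icc).inter
    (MeasurableSet.iInter fun v =>
      ((hq _).isOpen_inter_preimage hopen isOpen_Iio).measurableSet.compl)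

/-- The integrand in `(u, t)`. -/
def weight (p : Euc m × ℝ) : ℝ≥0∞ :=
  (before F j).indicator (fun p => ENNReal.ofReal
    (F.density j p.1 * (|(F.normalForm j p.1 p.2).det| / (F.gram j p.1).det))) p

theorem aemeasurable_weight : AEMeasurable (weight F j) := by
  refine (aemeasurable_indicator_iff (measurableSet_before F j)).2 ?_
  refine ENNReal.measurable_ofReal.comp_aemeasurable ?_
  refine ContinuousOn.aemeasurable ?_ (measurableSet_before F j)
  have hs : before F j ⊆ F.dom j ×ˢ univ := fun p hp => ⟨F.piece_subset j hp.1, mem_univ _⟩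
  refine ContinuousOn.mono ?_ hs
  have hG : ContinuousOn (fun p : Euc m × ℝ => (F.gram j p.1).det) (F.dom j ×ˢ univ) := by
    have : ContinuousOn (fun u => F.gram j u) (F.dom j) :=
      continuousOn_pi.2 fun a => continuousOn_pi.2 fun b => continuousOn_gram F j a b
    exact (continuous_id.matrix_det.comp_continuousOn this).comp continuous_fst.continuousOn
      fun p hp => hp.1
  have hN : ContinuousOn (fun p : Euc m × ℝ => (F.normalForm j p.1 p.2).det)
      (F.dom j ×ˢ univ) := by
    have : ContinuousOn (fun p : Euc m × ℝ => F.normalForm j p.1 p.2) (F.dom j ×ˢ univ) :=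
      continuousOn_pi.2 fun a => continuousOn_pi.2 fun b => continuousOn_normalForm F j a b
    exact continuous_id.matrix_det.comp_continuousOn this
  exact hG.sqrt.mul (hN.abs.div hG fun p hp => (gram_det_pos F j hp.1).ne')

theorem lintegral_weight :
    ∫⁻ p, weight F j p = ∫⁻ u in F.piece j, ENNReal.ofReal (F.density j u) *
      ∫⁻ t in Icc (-(Real.pi / 2)) (Real.pi / 2), ENNReal.ofReal (F.jacobian j u t) := by
  rw [Measure.volume_eq_prod, lintegral_prod _ (aemeasurable_weight F j),
    ← lintegral_indicator (F.measurable_piece j)]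
  refine lintegral_congr fun u => ?_
  by_cases hu : u ∈ F.piece j
  · rw [indicator_of_mem hu, ← lintegral_const_mul' _ _ ENNReal.ofReal_ne_top,
      ← lintegral_indicator measurableSet_Icc]
    refine lintegral_congr fun t => ?_
    by_cases hb : F.BeforeFocal j u t
    · rw [indicator_of_mem hb.1, weight, indicator_of_mem (show (u, t) ∈ before F j from ⟨hu, hb⟩),
        Immersion.jacobian, indicator_of_mem (show t ∈ {t | F.BeforeFocal j u t} from hb),
        ← ENNReal.ofReal_mul (show 0 ≤ F.density j u from Real.sqrt_nonneg _)]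
    · rw [weight, indicator_of_notMem fun h : (u, t) ∈ before F j => hb h.2]
      by_cases ht : t ∈ Icc (-(Real.pi / 2)) (Real.pi / 2)
      · rw [indicator_of_mem ht, Immersion.jacobian,
          indicator_of_notMem (show t ∉ {t | F.BeforeFocal j u t} from hb)]
        simp
      · rw [indicator_of_notMem ht]
  · rw [indicator_of_notMem hu]
    simp [weight, before, hu]

/-! ### Fubini -/

variable (m) in
/-- `(u, t, r)` as a product. -/
def split : W m ≃ᵐ (Euc m × ℝ) × ℝ :=
  (MeasurableEquiv.toLp 2 (Fin m ⊕ Fin 2 → ℝ)).symm.trans <|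
    (MeasurableEquiv.sumPiEquivProdPi fun _ => ℝ).trans <|
      ((MeasurableEquiv.toLp 2 (Fin m → ℝ)).prodCongr MeasurableEquiv.finTwoArrow).trans
        MeasurableEquiv.prodAssoc.symm

theorem measurePreserving_split : MeasurePreserving (split m) volume volume := by
  refine ((PiLp.volume_preserving_ofLp _).trans
    ((volume_measurePreserving_sumPiEquivProdPi fun _ : Fin m ⊕ Fin 2 => ℝ).trans
      (((PiLp.volume_preserving_toLp (Fin m)).prod (volume_preserving_finTwoArrow ℝ)).trans
        (volume_preserving_prodAssoc.symm _))))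

theorem split_apply (w : W m) : split m w = ((head m w, tc m w), rc m w) := rfl

/-- The domain of the cone map. -/
def coneSet : Set (W m) := split m ⁻¹' (before F j ×ˢ Ioc (0 : ℝ) 1)

theorem image_volume_le :
    volume ((fun w => tau m (psi F j w)) '' coneSet F j) ≤
      ENNReal.ofReal ((m : ℝ) + 2)⁻¹ * ∫⁻ p, weight F j p := by
  have hmeas : MeasurableSet (coneSet F j) :=
    ((measurableSet_before F j).prod measurableSet_Ioc).preimage (split m).measurable
  have hd : ∀ w ∈ coneSet F j, head m w ∈ F.dom j := fun w hw => by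
    rw [coneSet, mem_preimage, split_apply] at hw
    exact F.piece_subset j hw.1.1
  refine (addHaar_image_le_lintegral_abs_det_fderiv volume hmeas fun w hw =>
    ((tau m).toContinuousLinearEquiv.hasFDerivAt.comp w
      (hasFDerivAt_psi F j (hd w hw))).hasFDerivWithinAt).trans ?_
  have hrad : ∫⁻ r in Ioc (0 : ℝ) 1, ENNReal.ofReal (r ^ (m + 1))
      = ENNReal.ofReal ((m : ℝ) + 2)⁻¹ := by
    rw [← ofReal_integral_eq_lintegral_ofReal, ← intervalIntegral.integral_of_le zero_le_one,
      integral_pow]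
    · push_cast
      norm_num
      ring_nf
    · exact ((continuous_pow _).integrableOn_Icc).mono_set Ioc_subset_Icc_self
    · filter_upwards [ae_restrict_mem measurableSet_Ioc] with r hr using pow_nonneg hr.1.le _
  rw [← hrad, ← lintegral_indicator measurableSet_Ioc, mul_comm,
    ← lintegral_prod_mul (aemeasurable_weight F j)
      ((Measurable.indicator (by fun_prop) measurableSet_Ioc).aemeasurable),
    ← lintegral_indicator hmeas, ← Measure.volume_eq_prod,
    ← (measurePreserving_split (m := m)).lintegral_comp_emb (split m).measurableEmbedding]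
  refine lintegral_mono fun w => ?_
  by_cases hw : w ∈ coneSet F j
  · rw [indicator_of_mem hw]
    have hdom := hd w hw
    rw [coneSet, mem_preimage, split_apply] at hw
    have hG := gram_det_pos F j hdom
    rw [split_apply, weight, indicator_of_mem hw.1, indicator_of_mem hw.2]
    dsimp only
    rw [← ENNReal.ofReal_mul (mul_nonneg (show 0 ≤ F.density j (head m w) from Real.sqrt_nonneg _)
      (div_nonneg (abs_nonneg _) hG.le))]
    refine le_of_eq (congrArg ENNReal.ofReal ?_)
    have h := abs_det_psi' F j hdom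
    rw [abs_of_pos hw.2.1] at h
    have hd0 : F.density j (head m w) * F.density j (head m w) = (F.gram j (head m w)).det :=
      Real.mul_self_sqrt hG.le
    field_simp
    linear_combination F.density j (head m w) * h
      - |((tau m).toContinuousLinearEquiv.toContinuousLinearMap.comp (psi' F j w)).det| * hd0
  · rw [indicator_of_notMem hw]
    exact zero_le

end Cone

open Cone in
/-- The cone bound. -/
theorem coneBound (hC : Covered) : ConeBound := by
  intro m ι _ F hm hmin
  have hball : ENNReal.ofReal (sphereArea (m + 1) / ((m : ℝ) + 2))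
      = volume (Metric.ball (0 : W m) 1) := by
    rw [EuclideanSpace.volume_ball]
    simp only [ENNReal.ofReal_one, one_pow, one_mul, Fintype.card_sum, Fintype.card_fin]
    congr 1
    unfold sphereArea
    push_cast
    rw [show ((m : ℝ) + 2) / 2 + 1 = ((m : ℝ) + 1 + 1) / 2 + 1 by ring,
      Real.Gamma_add_one (by positivity), Real.sqrt_eq_rpow, ← Real.rpow_natCast,
      ← Real.rpow_mul Real.pi_pos.le]
    have := Real.Gamma_pos_of_pos (show (0 : ℝ) < ((m : ℝ) + 1 + 1) / 2 by positivity)
    push_cast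
    field_simp
    ring_nf
  have hcover : Metric.ball (0 : W m) 1 ⊆
      {0} ∪ ⋃ j, (fun w => tau m (psi F j w)) '' coneSet F j := by
    intro x hx
    rcases eq_or_ne x 0 with h0 | h0
    · exact Or.inl h0
    · right
      set y := (tau m).symm x
      have hy : ‖y‖ = ‖x‖ := (tau m).symm.norm_map x
      have hx0 : 0 < ‖x‖ := norm_pos_iff.2 h0
      obtain ⟨j, u, hu, t, hb, hq⟩ := hC m ι F hm hmin (‖x‖⁻¹ • y)
        (by rw [norm_smul, norm_inv, norm_norm, hy, inv_mul_cancel₀ hx0.ne'])
      refine mem_iUnion.2 ⟨j, (split m).symm ((u, t), ‖x‖), ?_, ?_⟩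
      · simp only [coneSet, mem_preimage, MeasurableEquiv.apply_symm_apply]
        refine ⟨⟨hu, hb⟩, hx0, ?_⟩
        simpa using (mem_ball_zero_iff.1 hx).le
      · have h := split_apply ((split m).symm ((u, t), ‖x‖))
        rw [MeasurableEquiv.apply_symm_apply] at h
        simp only [Prod.mk.injEq] at h
        obtain ⟨⟨e1, e2⟩, e3⟩ := h
        simp only [psi, ← e1, ← e2, ← e3, ← hq, smul_smul, mul_inv_cancel₀ hx0.ne', one_smul, y,
          LinearIsometryEquiv.apply_symm_apply]
  have : Nontrivial (W m) := inferInstance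
  have hineq : ENNReal.ofReal (sphereArea (m + 1) / ((m : ℝ) + 2)) ≤
      ENNReal.ofReal ((m : ℝ) + 2)⁻¹ * ∑ j, ∫⁻ u in F.piece j, ENNReal.ofReal (F.density j u) *
        ∫⁻ t in Icc (-(Real.pi / 2)) (Real.pi / 2), ENNReal.ofReal (F.jacobian j u t) := by
    rw [hball, Finset.mul_sum]
    refine (measure_mono hcover).trans ((measure_union_le _ _).trans ?_)
    rw [measure_singleton, zero_add]
    refine (measure_iUnion_fintype_le _ _).trans (Finset.sum_le_sum fun j _ => ?_)
    exact (image_volume_le F j).trans_eq (by rw [lintegral_weight])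
  rw [div_eq_mul_inv, mul_comm (sphereArea (m + 1)), ENNReal.ofReal_mul (by positivity)] at hineq
  exact (ENNReal.mul_le_mul_iff_right (by simp; positivity) ENNReal.ofReal_ne_top).1 hineq

end Vale.Agent.P224.Clifford
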