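import Vale.Agent.P224.Clifford.Spectral

/-!
# P224: the nearest point of the hypersurface gives a normal geodesic without focal point
-/

noncomputable section

open Set Filter
open scoped RealInnerProductSpace ContDiff Topology

namespace Vale.Agent.P224.Clifford

namespace Immersion

variable {m : ℕ} {ι : Type} (F : Immersion m ι)

theorem hasFDerivAt_pos {j : ι} {u : Euc m} (hu : u ∈ F.dom j) :
    HasFDerivAt (F.pos j) (fderiv ℝ (F.pos j) u) u :=
  ((F.contDiffAt_pos hu).differentiableAt (by simp)).hasFDerivAt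

theorem hasFDerivAt_dpos {j : ι} {u : Euc m} (hu : u ∈ F.dom j) :
    HasFDerivAt (fderiv ℝ (F.pos j)) (fderiv ℝ (fderiv ℝ (F.pos j)) u) u :=
  (((F.contDiffAt_pos hu).fderiv_right (m := 1)
    (by exact WithTop.coe_le_coe.2 (le_top (a := (2 : ℕ∞))))).differentiableAt
    (by simp)).hasFDerivAt

theorem pos_deriv {j : ι} {u : Euc m} (hu : u ∈ F.dom j) (v : Euc m) :
    ⟪F.pos j u, fderiv ℝ (F.pos j) u v⟫ = 0 := by
  have h := ((F.hasFDerivAt_pos hu).inner ℝ (F.hasFDerivAt_pos hu))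
  have hc : (fun y => ⟪F.pos j y, F.pos j y⟫) =ᶠ[𝓝 u] fun _ => (1 : ℝ) := by
    filter_upwards [(F.isOpen_dom j).mem_nhds hu] with y hy
    rw [real_inner_self_eq_norm_sq, F.norm_pos j y hy, one_pow]
  have h2 := DFunLike.congr_fun
    (h.unique ((hasFDerivAt_const (1 : ℝ) u).congr_of_eventuallyEq hc)) v
  simp only [fderivInnerCLM_apply, ContinuousLinearMap.comp_apply, ContinuousLinearMap.prod_apply, _root_.zero_apply] at h2
  rw [real_inner_comm (F.pos j u) (fderiv ℝ (F.pos j) u v)] at h2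
  linarith

theorem pos_second {j : ι} {u : Euc m} (hu : u ∈ F.dom j) (v : Euc m) :
    ⟪F.pos j u, fderiv ℝ (fderiv ℝ (F.pos j)) u v v⟫ = -‖fderiv ℝ (F.pos j) u v‖ ^ 2 := by
  have h := (F.hasFDerivAt_pos hu).inner ℝ
    ((F.hasFDerivAt_dpos hu).clm_apply (hasFDerivAt_const v u))
  have hc : (fun y => ⟪F.pos j y, fderiv ℝ (F.pos j) y v⟫) =ᶠ[𝓝 u] fun _ => (0 : ℝ) := by
    filter_upwards [(F.isOpen_dom j).mem_nhds hu] with y hy
    exact F.pos_deriv hy v
  have h2 := DFunLike.congr_fun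
    (h.unique ((hasFDerivAt_const (0 : ℝ) u).congr_of_eventuallyEq hc)) v
  simp only [fderivInnerCLM_apply, ContinuousLinearMap.comp_apply, ContinuousLinearMap.prod_apply, _root_.zero_apply,
    _root_.add_apply, ContinuousLinearMap.flip_apply, map_zero, zero_add,
    real_inner_self_eq_norm_sq] at h2
  linarith

/-- The second derivative test at an interior maximum. -/
theorem hessian_nonpos {j : ι} {u : Euc m} (hu : u ∈ F.dom j) {q : Euc (m + 2)}
    (hmax : IsLocalMax (fun y => ⟪q, F.pos j y⟫) u) (v : Euc m) :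
    ⟪q, fderiv ℝ (F.pos j) u v⟫ = 0 ∧
      ⟪q, fderiv ℝ (fderiv ℝ (F.pos j)) u v v⟫ ≤ 0 := by
  set φ : ℝ → ℝ := fun τ => ⟪q, F.pos j (u + τ • v)⟫
  have hline : ∀ τ, HasDerivAt (fun τ : ℝ => u + τ • v) v τ := fun τ => by
    simpa using ((hasDerivAt_id τ).smul_const v).const_add u
  have hnear : ∀ᶠ τ in 𝓝 (0 : ℝ), u + τ • v ∈ F.dom j :=
    (hline 0).continuousAt.preimage_mem_nhds (by simpa using (F.isOpen_dom j).mem_nhds hu)
  have hφ : ∀ τ, u + τ • v ∈ F.dom j →
      HasDerivAt φ ⟪q, fderiv ℝ (F.pos j) (u + τ • v) v⟫ τ := fun τ hτ => by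
    have := ((hasDerivAt_const τ q).inner ℝ ((F.hasFDerivAt_pos hτ).comp_hasDerivAt τ (hline τ)))
    simpa [φ] using this
  have hd : HasDerivAt (fun τ : ℝ => ⟪q, fderiv ℝ (F.pos j) (u + τ • v) v⟫)
      ⟪q, fderiv ℝ (fderiv ℝ (F.pos j)) u v v⟫ 0 := by
    have h1 := (F.hasFDerivAt_dpos (u := u + (0 : ℝ) • v) (by simpa using hu)).comp_hasDerivAt
      (0 : ℝ) (hline 0)
    have h2 := (hasDerivAt_const (0 : ℝ) q).inner ℝ (h1.clm_apply (hasDerivAt_const (0 : ℝ) v))
    simpa using h2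
  have heq : deriv φ =ᶠ[𝓝 (0 : ℝ)] fun τ : ℝ => ⟪q, fderiv ℝ (F.pos j) (u + τ • v) v⟫ :=
    hnear.mono fun τ hτ => (hφ τ hτ).deriv
  have hd2 : deriv (deriv φ) 0 = ⟪q, fderiv ℝ (fderiv ℝ (F.pos j)) u v v⟫ :=
    (hd.congr_of_eventuallyEq heq).deriv
  have hcont : ContinuousAt φ 0 := (hφ 0 (by simpa using hu)).continuousAt
  have hloc : IsLocalMax φ 0 := by
    have hmax' : IsLocalMax (fun y => ⟪q, F.pos j y⟫) (u + (0 : ℝ) • v) := by simpa using hmax
    exact hmax'.comp_continuous (g := fun τ : ℝ => u + τ • v) (hline 0).continuousAt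
  have h0 : deriv φ 0 = 0 := hloc.deriv_eq_zero
  refine ⟨?_, ?_⟩
  · rw [(hφ 0 (by simpa using hu)).deriv] at h0
    simpa using h0
  · by_contra hp
    rw [not_le, ← hd2] at hp
    have hmin := isLocalMin_of_deriv_deriv_pos hp h0 hcont
    have hconst : φ =ᶠ[𝓝 0] fun _ => φ 0 := by
      filter_upwards [hloc, hmin] with τ a b using le_antisymm a b
    have : deriv (deriv φ) 0 = 0 := by
      rw [(hconst.deriv).deriv_eq]; simp
    linarith

/-- A vector orthogonal to the tangent space, the normal and the position is zero. -/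
theorem eq_of_orth {j : ι} {u : Euc m} (hu : u ∈ F.dom j) {w : Euc (m + 2)}
    (hT : ∀ v, ⟪w, fderiv ℝ (F.pos j) u v⟫ = 0) (hN : ⟪w, F.nrm j u⟫ = 0)
    (hP : ⟪w, F.pos j u⟫ = 0) : w = 0 := by
  set D := (fderiv ℝ (F.pos j) u : Euc m →ₗ[ℝ] Euc (m + 2))
  set L : (Euc m × ℝ × ℝ) →ₗ[ℝ] Euc (m + 2) :=
    D.coprod ((LinearMap.toSpanSingleton ℝ _ (F.nrm j u)).coprod
      (LinearMap.toSpanSingleton ℝ _ (F.pos j u))) with hL
  have hLapp : ∀ v a b, L (v, a, b) =
      fderiv ℝ (F.pos j) u v + (a • F.nrm j u + b • F.pos j u) := fun v a b => by simp [hL, D]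
  have hNN : ⟪F.nrm j u, F.nrm j u⟫ = 1 := by
    rw [real_inner_self_eq_norm_sq, F.norm_nrm j u hu, one_pow]
  have hPP : ⟪F.pos j u, F.pos j u⟫ = 1 := by
    rw [real_inner_self_eq_norm_sq, F.norm_pos j u hu, one_pow]
  have hinj : Function.Injective L := by
    refine (injective_iff_map_eq_zero L).2 fun x hx => ?_
    obtain ⟨v, a, b⟩ := x
    rw [hLapp] at hx
    have ha := congrArg (fun z => ⟪z, F.nrm j u⟫) hx
    have hb := congrArg (fun z => ⟪z, F.pos j u⟫) hx
    simp only [inner_add_left, real_inner_smul_left, inner_zero_left, F.deriv_nrm j u hu,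
      F.pos_nrm j u hu, hNN, hPP, real_inner_comm (F.pos j u) (F.nrm j u),
      real_inner_comm (F.pos j u) (fderiv ℝ (F.pos j) u v), F.pos_deriv hu, mul_zero, mul_one,
      add_zero, zero_add] at ha hb
    subst ha hb
    simp only [zero_smul, add_zero] at hx
    simp [F.immersive j u hu (hx.trans (map_zero _).symm)]
  obtain ⟨⟨v, a, b⟩, hx⟩ := (L.injective_iff_surjective_of_finrank_eq_finrank
    (by simp [Module.finrank_prod])).1 hinj w
  rw [hLapp] at hx
  refine inner_self_eq_zero (𝕜 := ℝ) |>.1 ?_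
  calc ⟪w, w⟫ = ⟪w, fderiv ℝ (F.pos j) u v + (a • F.nrm j u + b • F.pos j u)⟫ := by rw [hx]
    _ = 0 := by simp [inner_add_right, real_inner_smul_right, hT, hN, hP]

end Immersion

theorem covered : Covered := by
  intro m ι _ F hm hmin q hq
  obtain ⟨p, hp, hpmax⟩ := F.compact_image.exists_isMaxOn F.nonempty_image
    (f := fun x => ⟪q, x⟫) (by fun_prop : Continuous fun x : Euc (m + 2) => ⟪q, x⟫).continuousOn
  obtain ⟨j, hj⟩ := mem_iUnion.1 hp
  obtain ⟨u, huP, rfl⟩ := hj
  have hu := F.piece_subset j huP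
  have hmax : IsLocalMax (fun y => ⟪q, F.pos j y⟫) u := by
    filter_upwards [(F.isOpen_dom j).mem_nhds hu] with y hy
    exact hpmax (F.dom_image j ⟨y, hy, rfl⟩)
  set c := ⟪q, F.pos j u⟫ with hc
  set s := ⟪q, F.nrm j u⟫ with hs
  have hNN : ⟪F.nrm j u, F.nrm j u⟫ = 1 := by
    rw [real_inner_self_eq_norm_sq, F.norm_nrm j u hu, one_pow]
  have hPP : ⟪F.pos j u, F.pos j u⟫ = 1 := by
    rw [real_inner_self_eq_norm_sq, F.norm_pos j u hu, one_pow]
  have hPN := F.pos_nrm j u hu
  have hNP : ⟪F.nrm j u, F.pos j u⟫ = 0 := by rw [real_inner_comm]; exact hPN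
  have hdec : q = c • F.pos j u + s • F.nrm j u := by
    refine sub_eq_zero.1 (F.eq_of_orth hu (fun v => ?_) ?_ ?_)
    · rw [inner_sub_left, (F.hessian_nonpos hu hmax v).1, inner_add_left, real_inner_smul_left,
        real_inner_smul_left, F.pos_deriv hu, real_inner_comm, F.deriv_nrm j u hu]
      ring
    · rw [inner_sub_left, inner_add_left, real_inner_smul_left, real_inner_smul_left, hPN, hNN,
        ← hs]
      ring
    · rw [inner_sub_left, inner_add_left, real_inner_smul_left, real_inner_smul_left, hPP, hNP,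
        ← hc]
      ring
  have hcs : c ^ 2 + s ^ 2 = 1 := by
    have h := congrArg (fun z => ⟪z, z⟫) hdec
    simp only [inner_add_left, inner_add_right, real_inner_smul_left, real_inner_smul_right,
      hPP, hNN, hPN, hNP, mul_zero, mul_one, add_zero, zero_add] at h
    rw [real_inner_self_eq_norm_sq, hq] at h
    linarith
  have hquad : ∀ v : Fin m → ℝ,
      0 ≤ ∑ a, ∑ b, v a * v b * (c * F.gram j u a b - s * F.second j u a b) := by
    intro v
    set z : Euc m := WithLp.toLp 2 v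
    have h := (F.hessian_nonpos hu hmax z).2
    rw [hdec, inner_add_left, real_inner_smul_left, real_inner_smul_left, F.pos_second hu,
      real_inner_comm, ← F.second_quad] at h
    have e : ∑ a, ∑ b, v a * v b * (c * F.gram j u a b - s * F.second j u a b) =
        c * (∑ a, ∑ b, v a * v b * F.gram j u a b) -
          s * ∑ a, ∑ b, v a * v b * F.second j u a b := by
      simp only [mul_sub, Finset.sum_sub_distrib, Finset.mul_sum]
      congr 1 <;> exact Finset.sum_congr rfl fun a _ => Finset.sum_congr rfl fun b _ => by ring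
    rw [e, F.gram_quad]
    linarith
  set t := Real.arcsin s with ht
  have hs1 : |s| ≤ 1 := (sq_le_one_iff_abs_le_one s).1 (by nlinarith)
  have hsin : Real.sin t = s := Real.sin_arcsin (abs_le.1 hs1).1 (abs_le.1 hs1).2
  obtain ⟨k, h0, -, hk⟩ := F.exists_spectrum hmin hu
  have hc0 : 0 ≤ c := by
    by_contra hneg
    -- otherwise use the angle `π - t`
    set t' := Real.pi - t
    have hsin' : Real.sin t' = s := by rw [Real.sin_pi_sub]; exact hsin
    have hcos' : Real.cos t' = c := by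
      rw [Real.cos_pi_sub, ht, Real.cos_arcsin, show 1 - s ^ 2 = (-c) ^ 2 by linarith,
        Real.sqrt_sq (by linarith), neg_neg]
    have hnn := (hk t').2 fun v => by
      simpa [Immersion.normalForm, hsin', hcos'] using hquad v
    have hsum := Finset.sum_nonneg (s := Finset.univ) fun i _ => hnn i
    rw [Finset.sum_sub_distrib, ← Finset.sum_mul, h0, Finset.sum_const, Finset.card_univ,
      Fintype.card_fin, nsmul_eq_mul, hcos', zero_mul, sub_zero] at hsum
    have : (0 : ℝ) < m := by exact_mod_cast (show 0 < m by omega)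
    nlinarith
  have hcos : Real.cos t = c := by
    rw [ht, Real.cos_arcsin, show 1 - s ^ 2 = c ^ 2 by linarith, Real.sqrt_sq hc0]
  refine ⟨j, u, huP, t, ⟨⟨Real.neg_pi_div_two_le_arcsin s, Real.arcsin_le_pi_div_two s⟩,
    fun v => ?_⟩, by rw [hcos, hsin]; exact hdec⟩
  simpa [Immersion.normalForm, hsin, hcos] using hquad v

end Vale.Agent.P224.Clifford
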