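import Mathlib

/-!
# P224: closed immersed hypersurfaces of the sphere given by parametrised pieces

A closed immersion `F : M^m → S^(m+1)` gives such data: finitely many charts `dom j` with a unit
normal along each, and measurable pieces of the charts forming a partition of `M`. Then `vol`
is the volume of `(M, F^*g)`.
-/

noncomputable section

open MeasureTheory Set
open scoped RealInnerProductSpace ContDiff ENNReal

namespace Vale.Agent.P224.Clifford

/-- Euclidean space. -/
abbrev Euc (n : ℕ) := EuclideanSpace ℝ (Fin n)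

/-- The derivative in a direction. -/
def dirDeriv {E V : Type*} [NormedAddCommGroup E] [NormedSpace ℝ E] [NormedAddCommGroup V]
    [NormedSpace ℝ V] (f : E → V) (u v : E) : V :=
  fderiv ℝ f u v

/-- The second derivative. -/
def secondDeriv {E V : Type*} [NormedAddCommGroup E] [NormedSpace ℝ E] [NormedAddCommGroup V]
    [NormedSpace ℝ V] (f : E → V) (u v w : E) : V :=
  dirDeriv (fderiv ℝ f) u v w

section General

variable {E V : Type*} [NormedAddCommGroup E] [InnerProductSpace ℝ E] [NormedAddCommGroup V]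
  [InnerProductSpace ℝ V]

/-- A chart `f` of an immersion into the unit sphere, with unit normal `N`. -/
structure IsPatch (s : Set E) (f N : E → V) : Prop where
  isOpen : IsOpen s
  smooth : ContDiffOn ℝ ∞ f s
  smooth_normal : ContDiffOn ℝ ∞ N s
  norm_eq : ∀ u ∈ s, ‖f u‖ = 1
  norm_normal : ∀ u ∈ s, ‖N u‖ = 1
  orth : ∀ u ∈ s, ⟪f u, N u⟫ = 0
  deriv_orth : ∀ u ∈ s, ∀ v, ⟪fderiv ℝ f u v, N u⟫ = 0
  injective : ∀ u ∈ s, Function.Injective (fderiv ℝ f u)

/-- The pairing of two first derivatives. -/
def firstForm (f : E → V) (u v w : E) : ℝ := ⟪fderiv ℝ f u v, fderiv ℝ f u w⟫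

/-- The second derivative, paired with a vector. -/
def secondForm (f : E → V) (n : V) (u v w : E) : ℝ := ⟪secondDeriv f u v w, n⟫

end General

/-- A closed smooth immersed hypersurface of the unit sphere, by finitely many parametrised pieces.
The image of every chart lies in the compact union of the images of the pieces. -/
structure Immersion (m : ℕ) (ι : Type) where
  dom : ι → Set (Euc m)
  piece : ι → Set (Euc m)
  pos : ι → Euc m → Euc (m + 2)
  nrm : ι → Euc m → Euc (m + 2)
  isPatch : ∀ j, IsPatch (dom j) (pos j) (nrm j)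
  piece_subset : ∀ j, piece j ⊆ dom j
  measurable_piece : ∀ j, MeasurableSet (piece j)
  compact_image : IsCompact (⋃ j, pos j '' piece j)
  nonempty_image : (⋃ j, pos j '' piece j).Nonempty
  dom_image : ∀ j, pos j '' dom j ⊆ ⋃ j, pos j '' piece j

namespace Immersion

variable {m : ℕ} {ι : Type} (F : Immersion m ι)

theorem isOpen_dom (j : ι) : IsOpen (F.dom j) := (F.isPatch j).isOpen
theorem smooth_pos (j : ι) : ContDiffOn ℝ ∞ (F.pos j) (F.dom j) := (F.isPatch j).smooth
theorem smooth_nrm (j : ι) : ContDiffOn ℝ ∞ (F.nrm j) (F.dom j) := (F.isPatch j).smooth_normal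
theorem norm_pos (j : ι) : ∀ u ∈ F.dom j, ‖F.pos j u‖ = 1 := (F.isPatch j).norm_eq
theorem norm_nrm (j : ι) : ∀ u ∈ F.dom j, ‖F.nrm j u‖ = 1 := (F.isPatch j).norm_normal
theorem pos_nrm (j : ι) : ∀ u ∈ F.dom j, ⟪F.pos j u, F.nrm j u⟫ = 0 := (F.isPatch j).orth
theorem deriv_nrm (j : ι) : ∀ u ∈ F.dom j, ∀ v, ⟪fderiv ℝ (F.pos j) u v, F.nrm j u⟫ = 0 :=
  (F.isPatch j).deriv_orth
theorem immersive (j : ι) : ∀ u ∈ F.dom j, Function.Injective (fderiv ℝ (F.pos j) u) :=
  (F.isPatch j).injective

/-- The coordinate vectors. -/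
def basisVec (m : ℕ) (a : Fin m) : Euc m := EuclideanSpace.single a 1

/-- The induced metric. -/
def gram (j : ι) (u : Euc m) : Matrix (Fin m) (Fin m) ℝ := fun a b =>
  firstForm (F.pos j) u (basisVec m a) (basisVec m b)

/-- The second fundamental form. -/
def second (j : ι) (u : Euc m) : Matrix (Fin m) (Fin m) ℝ := fun a b =>
  secondForm (F.pos j) (F.nrm j u) u (basisVec m a) (basisVec m b)

/-- The shape operator. -/
def shape (j : ι) (u : Euc m) : Matrix (Fin m) (Fin m) ℝ := (F.gram j u)⁻¹ * F.second j u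

/-- The mean curvature vanishes. -/
def IsMinimal : Prop := ∀ j, ∀ u ∈ F.dom j, (F.shape j u).trace = 0

/-- The squared norm of the second fundamental form. -/
def sffSq (j : ι) (u : Euc m) : ℝ := (F.shape j u * F.shape j u).trace

/-- The area element. -/
def density (j : ι) (u : Euc m) : ℝ := √(F.gram j u).det

/-- The volume, counted on the pieces. -/
def vol [Fintype ι] : ℝ≥0∞ := ∑ j, ∫⁻ u in F.piece j, ENNReal.ofReal (F.density j u)

/-- The volume of the part with `|A|² < m`. -/
def volBelow [Fintype ι] : ℝ≥0∞ :=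
  ∑ j, ∫⁻ u in F.piece j ∩ {u | F.sffSq j u < m}, ENNReal.ofReal (F.density j u)

/-- The matrix whose determinant is the Jacobian of the normal map, times the area element. -/
def normalForm (j : ι) (u : Euc m) (t : ℝ) : Matrix (Fin m) (Fin m) ℝ :=
  Real.cos t • F.gram j u - Real.sin t • F.second j u

/-- The arguments before the first focal point. -/
def BeforeFocal (j : ι) (u : Euc m) (t : ℝ) : Prop :=
  t ∈ Icc (-(Real.pi / 2)) (Real.pi / 2) ∧
    ∀ v : Fin m → ℝ, 0 ≤ ∑ a, ∑ b, v a * v b * F.normalForm j u t a b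

/-- The Jacobian of the normal map, extended by zero. -/
def jacobian (j : ι) (u : Euc m) (t : ℝ) : ℝ :=
  {t | F.BeforeFocal j u t}.indicator (fun t => |(F.normalForm j u t).det| / (F.gram j u).det) t

end Immersion

end Vale.Agent.P224.Clifford
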