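import Vale.Agent.P224.Gap.Equator

/-!
# P224: the focal integral of a trace-free spectrum

For `∑ k = 0` the integral over the focal interval of `∏ (cos t - kᵢ sin t)` is at most
`|S^(m+1)| / |S^m|`, and for `∑ k² ≥ m` at most `|S^(m+1)|` divided by the volume of some
minimal Clifford product.
-/

namespace Vale.Agent.P224.Clifford

open MeasureTheory Finset
open Vale.Agent.P224.Gap (sphereArea sphereArea_pos)

/-- The positive part of the Jacobian of the normal map. -/
noncomputable def focal {m : ℕ} (k : Fin m → ℝ) (t : ℝ) : ℝ :=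
  ∏ i, max (Real.cos t - k i * Real.sin t) 0

/-- The integral of `focal` over one half turn. -/
noncomputable def focalVolume {m : ℕ} (k : Fin m → ℝ) : ℝ :=
  ∫ t in (-(Real.pi / 2))..(Real.pi / 2), focal k t

/-- The volume of the minimal Clifford product `S^j × S^(m-j)`. -/
noncomputable def cliffordVolume (m j : ℕ) : ℝ :=
  ((j : ℝ) / m) ^ ((j : ℝ) / 2) * (((m - j : ℕ) : ℝ) / m) ^ (((m - j : ℕ) : ℝ) / 2) *
    sphereArea j * sphereArea (m - j)

/-- The least volume of a minimal Clifford product. -/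
noncomputable def cliffordMin (m : ℕ) : ℝ :=
  sInf (cliffordVolume m '' Set.Icc 1 (m - 1))

theorem focal_nonneg {m : ℕ} (k : Fin m → ℝ) (t : ℝ) : 0 ≤ focal k t :=
  prod_nonneg fun _ _ => le_max_right _ _

theorem focal_continuous {m : ℕ} :
    Continuous fun p : (Fin m → ℝ) × ℝ => focal p.1 p.2 := by
  unfold focal
  fun_prop

theorem focal_continuous_right {m : ℕ} (k : Fin m → ℝ) : Continuous (focal k) := by
  unfold focal
  fun_prop

theorem focalVolume_continuous {m : ℕ} : Continuous (focalVolume (m := m)) :=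
  intervalIntegral.continuous_parametric_intervalIntegral_of_continuous' focal_continuous _ _

theorem focalVolume_nonneg {m : ℕ} (k : Fin m → ℝ) : 0 ≤ focalVolume k :=
  intervalIntegral.integral_nonneg (by linarith [Real.pi_pos]) fun t _ => focal_nonneg k t

/-! ### Sphere areas and the trigonometric integral -/

/-- `∫₀^{π/2} cos^j sin^l`. -/
noncomputable def quarter (j l : ℕ) : ℝ :=
  ∫ u in (0 : ℝ)..(Real.pi / 2), Real.cos u ^ j * Real.sin u ^ l

theorem sphereArea_add_two (k : ℕ) :
    sphereArea (k + 2) * ((k : ℝ) + 1) = sphereArea k * (2 * Real.pi) := by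
  have hg := Real.Gamma_pos_of_pos (show (0 : ℝ) < ((k : ℝ) + 1) / 2 by positivity)
  unfold sphereArea
  push_cast
  rw [show ((k : ℝ) + 2 + 1) / 2 = ((k : ℝ) + 1) / 2 + 1 by ring,
    Real.rpow_add_one Real.pi_pos.ne', Real.Gamma_add_one (by positivity)]
  field_simp

theorem sphereArea_zero : sphereArea 0 = 2 := by
  unfold sphereArea
  norm_num [Real.Gamma_one_half_eq]
  rw [← Real.sqrt_eq_rpow]
  field_simp

theorem sphereArea_one : sphereArea 1 = 2 * Real.pi := by
  unfold sphereArea
  norm_num [Real.Gamma_one]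

theorem sphereArea_two : sphereArea 2 = 4 * Real.pi := by
  have := sphereArea_add_two 0
  rw [sphereArea_zero] at this
  push_cast at this
  linarith

theorem sphereArea_three : sphereArea 3 = 2 * Real.pi ^ 2 := by
  have := sphereArea_add_two 1
  rw [sphereArea_one] at this
  push_cast at this
  linear_combination this / 2

theorem quarter_swap (j l : ℕ) : quarter l j = quarter j l := by
  have h := intervalIntegral.integral_comp_sub_left (a := (0 : ℝ)) (b := Real.pi / 2)
    (fun u => Real.cos u ^ j * Real.sin u ^ l) (Real.pi / 2)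
  simp only [Real.cos_pi_div_two_sub, Real.sin_pi_div_two_sub, sub_self, sub_zero] at h
  rw [quarter, quarter, ← h]
  simp only [mul_comm]

theorem quarter_step (j l : ℕ) :
    ((j : ℝ) + l + 2) * quarter (j + 2) l = ((j : ℝ) + 1) * quarter j l := by
  have hd : ∀ u ∈ Set.uIcc 0 (Real.pi / 2),
      HasDerivAt (fun u => Real.cos u ^ (j + 1) * Real.sin u ^ (l + 1))
        (((j : ℝ) + l + 2) * (Real.cos u ^ (j + 2) * Real.sin u ^ l)
          - ((j : ℝ) + 1) * (Real.cos u ^ j * Real.sin u ^ l)) u := by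
    intro u _
    refine (((Real.hasDerivAt_cos u).fun_pow (j + 1)).mul
      ((Real.hasDerivAt_sin u).fun_pow (l + 1))).congr_deriv ?_
    simp only [Nat.add_sub_cancel, pow_succ, Nat.cast_add, Nat.cast_one]
    linear_combination
      (-((j : ℝ) + 1) * Real.cos u ^ j * Real.sin u ^ l) * (Real.sin_sq_add_cos_sq u)
  have h := intervalIntegral.integral_eq_sub_of_hasDerivAt hd
    (Continuous.intervalIntegrable (by fun_prop) _ _)
  rw [intervalIntegral.integral_sub (Continuous.intervalIntegrable (by fun_prop) _ _)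
    (Continuous.intervalIntegrable (by fun_prop) _ _), intervalIntegral.integral_const_mul,
    intervalIntegral.integral_const_mul] at h
  simp only [Real.cos_pi_div_two, Real.sin_zero, zero_pow (Nat.succ_ne_zero _), zero_mul,
    mul_zero, sub_self] at h
  unfold quarter
  linarith

/-- The area of `S^(j+l+1)` as a join. -/
theorem sphereArea_join : ∀ j l : ℕ,
    sphereArea j * sphereArea l * quarter j l = sphereArea (j + l + 1)
  | 0, 0 => by
    rw [sphereArea_zero, sphereArea_one, quarter]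
    simp
    ring
  | 0, 1 => by
    rw [sphereArea_zero, sphereArea_one, sphereArea_two, quarter]
    simp
    ring
  | 1, 0 => by
    rw [sphereArea_zero, sphereArea_one, sphereArea_two, quarter]
    simp
    ring
  | 1, 1 => by
    have hq : quarter 1 1 = 1 / 2 := by
      have hd : ∀ u ∈ Set.uIcc 0 (Real.pi / 2), HasDerivAt (fun u => Real.sin u ^ 2 / 2)
          (Real.cos u ^ 1 * Real.sin u ^ 1) u := fun u _ =>
        (((Real.hasDerivAt_sin u).fun_pow 2).div_const 2).congr_deriv (by push_cast; ring)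
      rw [quarter, intervalIntegral.integral_eq_sub_of_hasDerivAt hd
        (Continuous.intervalIntegrable (by fun_prop) _ _), Real.sin_pi_div_two, Real.sin_zero]
      norm_num
    rw [sphereArea_one, hq, sphereArea_three]
    ring
  | j + 2, l => by
    have h := sphereArea_join j l
    have h1 := sphereArea_add_two j
    have h2 := quarter_step j l
    have h3 := sphereArea_add_two (j + l + 1)
    rw [show j + 2 + l + 1 = j + l + 1 + 2 by omega]
    push_cast at h3
    refine mul_right_cancel₀ (show ((j : ℝ) + l + 2) * ((j : ℝ) + 1) ≠ 0 by positivity) ?_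
    linear_combination sphereArea l * (((j : ℝ) + l + 2) * quarter (j + 2) l) * h1
      + sphereArea l * sphereArea j * (2 * Real.pi) * h2 + ((j : ℝ) + 1) * (2 * Real.pi) * h
      - ((j : ℝ) + 1) * h3
  | j, l + 2 => by
    have h := sphereArea_join j l
    have h1 := sphereArea_add_two l
    have h2 := quarter_step l j
    have h3 := sphereArea_add_two (j + l + 1)
    rw [quarter_swap j l] at h2
    rw [← quarter_swap j (l + 2), show j + (l + 2) + 1 = j + l + 1 + 2 by omega]
    push_cast at h3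
    refine mul_right_cancel₀ (show ((j : ℝ) + l + 2) * ((l : ℝ) + 1) ≠ 0 by positivity) ?_
    linear_combination sphereArea j * (((l : ℝ) + j + 2) * quarter (l + 2) j) * h1
      + sphereArea l * sphereArea j * (2 * Real.pi) * h2 + ((l : ℝ) + 1) * (2 * Real.pi) * h
      - ((l : ℝ) + 1) * h3
termination_by j l => j + l

/-! ### Scaling -/

theorem focal_le_smul {m : ℕ} (k : Fin m → ℝ) (hk : ∑ i, k i = 0) {l : ℝ} (h0 : 0 ≤ l)
    (h1 : l ≤ 1) (t : ℝ) : focal k t ≤ focal (l • k) t := by
  set c := Real.cos t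
  set s := Real.sin t
  by_cases hpos : ∀ i, 0 < c - k i * s
  · rcases Nat.eq_zero_or_pos m with rfl | hm
    · simp [focal]
    have hmR : (0 : ℝ) < m := by exact_mod_cast hm
    have hc : 0 < c := by
      have : 0 < ∑ i, (c - k i * s) := sum_pos (fun i _ => hpos i) ⟨⟨0, hm⟩, mem_univ _⟩
      rw [sum_sub_distrib, ← sum_mul, hk] at this
      simp at this
      exact pos_of_mul_pos_right this hmR.le
    have hb : ∀ i, 0 < c - (l • k) i * s := fun i => by
      rw [Pi.smul_apply, smul_eq_mul]
      rcases eq_or_lt_of_le h0 with h | h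
      · rw [← h]; simpa using hc
      · nlinarith [mul_pos h (hpos i)]
    have hgm : ∑ i, Real.log (c - k i * s) ≤ m * Real.log c := by
      have : ∑ i, Real.log ((c - k i * s) / c) ≤ ∑ i, ((c - k i * s) / c - 1) :=
        sum_le_sum fun i _ => Real.log_le_sub_one_of_pos (div_pos (hpos i) hc)
      rw [sum_sub_distrib, ← sum_div, sum_sub_distrib, ← sum_mul, hk] at this
      simp only [Real.log_div (hpos _).ne' hc.ne', sum_sub_distrib] at this
      simp [hc.ne'] at this
      linarith
    have hconc : ∑ i, Real.log (c - k i * s) ≤ ∑ i, Real.log (c - (l • k) i * s) := by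
      have h2 : ∀ i, (1 - l) * Real.log c + l * Real.log (c - k i * s)
          ≤ Real.log (c - (l • k) i * s) := by
        intro i
        have := strictConcaveOn_log_Ioi.concaveOn.2 (x := c) (y := c - k i * s) hc (hpos i)
          (sub_nonneg.2 h1) h0 (by ring)
        simp only [smul_eq_mul] at this
        refine this.trans (le_of_eq (congrArg Real.log ?_))
        rw [Pi.smul_apply, smul_eq_mul]; ring
      calc ∑ i, Real.log (c - k i * s)
          ≤ ∑ i, ((1 - l) * Real.log c + l * Real.log (c - k i * s)) := by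
            rw [sum_add_distrib, sum_const, card_univ, Fintype.card_fin, nsmul_eq_mul, ← mul_sum]
            nlinarith [mul_le_mul_of_nonneg_left hgm (sub_nonneg.2 h1)]
        _ ≤ _ := sum_le_sum fun i _ => h2 i
    unfold focal
    rw [prod_congr rfl fun i _ => max_eq_left (hpos i).le,
      prod_congr rfl fun i _ => max_eq_left (hb i).le,
      ← Real.log_le_log_iff (prod_pos fun i _ => hpos i) (prod_pos fun i _ => hb i),
      Real.log_prod (fun i _ => (hpos i).ne'), Real.log_prod (fun i _ => (hb i).ne')]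
    exact hconc
  · obtain ⟨i, hi⟩ := not_forall.1 hpos
    rw [show focal k t = 0 from prod_eq_zero (mem_univ i) (max_eq_right (not_lt.1 hi))]
    exact focal_nonneg _ _

theorem focalVolume_mono {m : ℕ} {k k' : Fin m → ℝ} (h : ∀ t, focal k t ≤ focal k' t) :
    focalVolume k ≤ focalVolume k' :=
  intervalIntegral.integral_mono_on (by linarith [Real.pi_pos])
    ((focal_continuous_right k).intervalIntegrable _ _)
    ((focal_continuous_right k').intervalIntegrable _ _) fun t _ => h t

/-- No spectrum beats the equator. -/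
theorem focalVolume_mul_sphereArea_le {m : ℕ} (k : Fin m → ℝ) (hk : ∑ i, k i = 0) :
    focalVolume k * sphereArea m ≤ sphereArea (m + 1) := by
  refine (mul_le_mul_of_nonneg_right (focalVolume_mono (k' := (0 : ℝ) • k)
    (focal_le_smul k hk le_rfl zero_le_one)) (sphereArea_pos m).le).trans_eq ?_
  have h := sphereArea_join m 0
  rw [sphereArea_zero, add_zero] at h
  have h2 : focalVolume ((0 : ℝ) • k) = 2 * quarter m 0 := by
    have hcont : Continuous fun t : ℝ => Real.cos t ^ m := by fun_prop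
    have hc : focalVolume ((0 : ℝ) • k)
        = ∫ t in (-(Real.pi / 2))..(Real.pi / 2), Real.cos t ^ m := by
      refine intervalIntegral.integral_congr fun t ht => ?_
      rw [Set.uIcc_of_le (by linarith [Real.pi_pos])] at ht
      simp [focal, max_eq_left (Real.cos_nonneg_of_mem_Icc ht)]
    rw [hc, ← intervalIntegral.integral_add_adjacent_intervals
      (hcont.intervalIntegrable (-(Real.pi / 2)) 0) (hcont.intervalIntegrable 0 (Real.pi / 2))]
    have := intervalIntegral.integral_comp_neg (a := (0 : ℝ)) (b := Real.pi / 2)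
      fun t => Real.cos t ^ m
    simp only [Real.cos_neg, neg_zero] at this
    rw [← this]
    simp only [quarter, pow_zero, mul_one]
    ring
  rw [h2, ← h]
  ring

/-! ### Three values -/

/-- A product of three positive parts, as an affine function of the product of the values. -/
theorem triple_le {c s μ r a b d : ℝ} (h0 : a + b + d = 0) (hr : 0 < r)
    (h2 : a ^ 2 + b ^ 2 + d ^ 2 = 6 * r ^ 2) (hP : |a * b * d| ≤ 2 * r ^ 3) :
    max (c - (μ + a) * s) 0 * max (c - (μ + b) * s) 0 * max (c - (μ + d) * s) 0 ≤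
      (2 * r ^ 3 - a * b * d) / (4 * r ^ 3) *
          (max (c - (μ + r) * s) 0 * max (c - (μ + r) * s) 0 * max (c - (μ - 2 * r) * s) 0) +
        (2 * r ^ 3 + a * b * d) / (4 * r ^ 3) *
          (max (c - (μ + 2 * r) * s) 0 * max (c - (μ - r) * s) 0 * max (c - (μ - r) * s) 0) := by
  rw [abs_le] at hP
  have hl1 : 0 ≤ (2 * r ^ 3 - a * b * d) / (4 * r ^ 3) := div_nonneg (by linarith) (by positivity)
  have hl2 : 0 ≤ (2 * r ^ 3 + a * b * d) / (4 * r ^ 3) := div_nonneg (by linarith) (by positivity)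
  have hrhs : 0 ≤ (2 * r ^ 3 - a * b * d) / (4 * r ^ 3) *
          (max (c - (μ + r) * s) 0 * max (c - (μ + r) * s) 0 * max (c - (μ - 2 * r) * s) 0) +
        (2 * r ^ 3 + a * b * d) / (4 * r ^ 3) *
          (max (c - (μ + 2 * r) * s) 0 * max (c - (μ - r) * s) 0 * max (c - (μ - r) * s) 0) := by
    positivity
  rcases le_or_gt (c - (μ + a) * s) 0 with h | ha
  · rw [max_eq_right h]; simpa using hrhs
  rcases le_or_gt (c - (μ + b) * s) 0 with h | hb
  · rw [max_eq_right h]; simpa using hrhs
  rcases le_or_gt (c - (μ + d) * s) 0 with h | hd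
  · rw [max_eq_right h]; simpa using hrhs
  rw [max_eq_left ha.le, max_eq_left hb.le, max_eq_left hd.le]
  -- the double value lies between the extreme values on each side
  have hup : r ≤ max a (max b d) := by
    by_contra h
    obtain ⟨ha', h'⟩ := max_lt_iff.1 (not_le.1 h)
    obtain ⟨hb', hd'⟩ := max_lt_iff.1 h'
    nlinarith [mul_pos (sub_pos.2 ha') (sub_pos.2 hb'), mul_pos (sub_pos.2 hb') (sub_pos.2 hd'),
      mul_pos (sub_pos.2 hd') (sub_pos.2 ha')]
  have hlo : min a (min b d) ≤ -r := by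
    by_contra h
    obtain ⟨ha', h'⟩ := lt_min_iff.1 (not_le.1 h)
    obtain ⟨hb', hd'⟩ := lt_min_iff.1 h'
    nlinarith [mul_pos (sub_pos.2 ha') (sub_pos.2 hb'), mul_pos (sub_pos.2 hb') (sub_pos.2 hd'),
      mul_pos (sub_pos.2 hd') (sub_pos.2 ha')]
  have key : ∀ x, min a (min b d) ≤ x → x ≤ max a (max b d) → 0 < c - (μ + x) * s := by
    intro x hx1 hx2
    rcases le_or_gt 0 s with hs | hs
    · rcases le_max_iff.1 hx2 with h | h
      · nlinarith [mul_le_mul_of_nonneg_right h hs]
      rcases le_max_iff.1 h with h | h <;> nlinarith [mul_le_mul_of_nonneg_right h hs]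
    · rcases min_le_iff.1 hx1 with h | h
      · nlinarith [mul_le_mul_of_nonpos_right h hs.le]
      rcases min_le_iff.1 h with h | h <;> nlinarith [mul_le_mul_of_nonpos_right h hs.le]
  have hA : 0 < c - (μ + r) * s := key r (hlo.trans (by linarith)) hup
  have hB : 0 < c - (μ - r) * s := by
    simpa [sub_eq_add_neg] using key (-r) hlo (by linarith)
  rw [max_eq_left hA.le, max_eq_left hB.le]
  have hident : (c - (μ + a) * s) * (c - (μ + b) * s) * (c - (μ + d) * s) =
      (2 * r ^ 3 - a * b * d) / (4 * r ^ 3) *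
          ((c - (μ + r) * s) * (c - (μ + r) * s) * (c - (μ - 2 * r) * s)) +
        (2 * r ^ 3 + a * b * d) / (4 * r ^ 3) *
          ((c - (μ + 2 * r) * s) * (c - (μ - r) * s) * (c - (μ - r) * s)) := by
    have hd0 : d = -a - b := by linarith
    subst hd0
    field_simp
    linear_combination (-(2 * r ^ 3 * s ^ 2 * (c - μ * s))) * h2
  rw [hident]
  gcongr
  · exact le_max_left _ _
  · exact le_max_left _ _

/-- Three distinct values are strictly inside the range of the product. -/
theorem abs_prod_lt {a b d r : ℝ} (h0 : a + b + d = 0) (hr : 0 < r)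
    (h2 : a ^ 2 + b ^ 2 + d ^ 2 = 6 * r ^ 2) (hab : a ≠ b) (hbd : b ≠ d) (had : a ≠ d) :
    |a * b * d| < 2 * r ^ 3 := by
  have hd0 : d = -a - b := by linarith
  subst hd0
  have hr2 : r ^ 2 = (a ^ 2 + b ^ 2 + a * b) / 3 := by linarith
  have hid : (a - b) ^ 2 * (b - (-a - b)) ^ 2 * (a - (-a - b)) ^ 2
      = 27 * ((2 * r ^ 3) ^ 2 - (a * b * (-a - b)) ^ 2) := by
    have : (2 * r ^ 3) ^ 2 = 4 * (r ^ 2) ^ 3 := by ring
    rw [this, hr2]
    ring
  have hpos : 0 < (a - b) ^ 2 * (b - (-a - b)) ^ 2 * (a - (-a - b)) ^ 2 := by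
    have h1 : a - b ≠ 0 := sub_ne_zero.2 hab
    have h2 : b - (-a - b) ≠ 0 := sub_ne_zero.2 hbd
    have h3 : a - (-a - b) ≠ 0 := sub_ne_zero.2 had
    positivity
  exact abs_lt_of_sq_lt_sq (by linarith) (by positivity)

/-- Replace three coordinates. -/
def setThree {m : ℕ} (k : Fin m → ℝ) (i j l : Fin m) (x y z : ℝ) : Fin m → ℝ :=
  Function.update (Function.update (Function.update k i x) j y) l z

theorem setThree_apply {m : ℕ} {k : Fin m → ℝ} {i j l : Fin m} (hij : i ≠ j) (hjl : j ≠ l)
    (hil : i ≠ l) (x y z : ℝ) :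
    setThree k i j l x y z i = x ∧ setThree k i j l x y z j = y ∧ setThree k i j l x y z l = z ∧
      ∀ n, n ≠ i → n ≠ j → n ≠ l → setThree k i j l x y z n = k n := by
  simp +contextual [setThree, Function.update, hij, hjl, hil]

theorem sum_split_three {m : ℕ} {i j l : Fin m} (hij : i ≠ j) (hjl : j ≠ l) (hil : i ≠ l)
    (f : Fin m → ℝ) : ∑ n, f n = f i + f j + f l + ∑ n ∈ univ \ {i, j, l}, f n := by
  rw [← sum_sdiff (subset_univ {i, j, l}), sum_insert (by simp [hij, hil]),
    sum_insert (by simp [hjl]), sum_singleton]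
  ring

theorem prod_split_three {m : ℕ} {i j l : Fin m} (hij : i ≠ j) (hjl : j ≠ l) (hil : i ≠ l)
    (f : Fin m → ℝ) : ∏ n, f n = f i * f j * f l * ∏ n ∈ univ \ {i, j, l}, f n := by
  rw [← prod_sdiff (subset_univ {i, j, l}), prod_insert (by simp [hij, hil]),
    prod_insert (by simp [hjl]), prod_singleton]
  ring

/-- Three distinct values are never a maximiser with least cubic sum. -/
theorem exists_better {m : ℕ} (k : Fin m → ℝ) {i j l : Fin m} (hij : k i ≠ k j)
    (hjl : k j ≠ k l) (hil : k i ≠ k l) :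
    ∃ (k₁ k₂ : Fin m → ℝ) (lam : ℝ), 0 < lam ∧ lam ≤ 1 ∧
      ∑ n, k₁ n = ∑ n, k n ∧ ∑ n, k₁ n ^ 2 = ∑ n, k n ^ 2 ∧
      ∑ n, k₂ n = ∑ n, k n ∧ ∑ n, k₂ n ^ 2 = ∑ n, k n ^ 2 ∧
      ∑ n, k₁ n ^ 3 < ∑ n, k n ^ 3 ∧
      focalVolume k ≤ lam * focalVolume k₁ + (1 - lam) * focalVolume k₂ := by
  have nij : i ≠ j := fun h => hij (congrArg k h)
  have njl : j ≠ l := fun h => hjl (congrArg k h)
  have nil' : i ≠ l := fun h => hil (congrArg k h)
  set μ := (k i + k j + k l) / 3 with hμ
  set a := k i - μ with ha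
  set b := k j - μ with hb
  set d := k l - μ with hd
  have h0 : a + b + d = 0 := by rw [ha, hb, hd, hμ]; ring
  have hsq : 0 < a ^ 2 + b ^ 2 + d ^ 2 := by
    have : a ≠ b := fun h => hij (by linarith)
    rcases ne_or_eq a 0 with h | h
    · positivity
    · have : b ≠ 0 := fun hb0 => this (h.trans hb0.symm)
      positivity
  set r := Real.sqrt ((a ^ 2 + b ^ 2 + d ^ 2) / 6) with hr'
  have hr : 0 < r := Real.sqrt_pos.2 (by positivity)
  have h2 : a ^ 2 + b ^ 2 + d ^ 2 = 6 * r ^ 2 := by
    rw [hr', Real.sq_sqrt (by positivity)]; ring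
  have hP := abs_prod_lt h0 hr h2 (fun h => hij (by linarith)) (fun h => hjl (by linarith))
    (fun h => hil (by linarith))
  obtain ⟨hP1, hP2⟩ := abs_lt.1 hP
  obtain ⟨eAi, eAj, eAl, eA⟩ :=
    setThree_apply (k := k) nij njl nil' (μ + r) (μ + r) (μ - 2 * r)
  obtain ⟨eBi, eBj, eBl, eB⟩ :=
    setThree_apply (k := k) nij njl nil' (μ + 2 * r) (μ - r) (μ - r)
  set k₁ := setThree k i j l (μ + r) (μ + r) (μ - 2 * r)
  set k₂ := setThree k i j l (μ + 2 * r) (μ - r) (μ - r)
  have hrest : ∀ (k' : Fin m → ℝ), (∀ n, n ≠ i → n ≠ j → n ≠ l → k' n = k n) → ∀ f : ℝ → ℝ,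
      ∑ n, f (k' n) - ∑ n, f (k n)
        = f (k' i) + f (k' j) + f (k' l) - (f (k i) + f (k j) + f (k l)) := by
    intro k' hk' f
    rw [sum_split_three nij njl nil' fun n => f (k' n),
      sum_split_three nij njl nil' fun n => f (k n)]
    have : ∑ n ∈ univ \ {i, j, l}, f (k' n) = ∑ n ∈ univ \ {i, j, l}, f (k n) :=
      sum_congr rfl fun n hn => by
        simp only [mem_sdiff, mem_insert, mem_singleton, not_or] at hn
        rw [hk' n hn.2.1 hn.2.2.1 hn.2.2.2]
    rw [this]; ring
  have hki : k i = μ + a := by rw [ha]; ring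
  have hkj : k j = μ + b := by rw [hb]; ring
  have hkl : k l = μ + d := by rw [hd]; ring
  refine ⟨k₁, k₂, (2 * r ^ 3 - a * b * d) / (4 * r ^ 3), div_pos (by linarith) (by positivity),
    (div_le_one (by positivity)).2 (by linarith), ?_, ?_, ?_, ?_, ?_, ?_⟩
  · have := hrest k₁ eA id
    simp only [id, eAi, eAj, eAl, hki, hkj, hkl] at this
    linarith
  · have := hrest k₁ eA (· ^ 2)
    simp only [eAi, eAj, eAl, hki, hkj, hkl] at this
    linear_combination this - 2 * μ * h0 - h2
  · have := hrest k₂ eB id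
    simp only [id, eBi, eBj, eBl, hki, hkj, hkl] at this
    linarith
  · have := hrest k₂ eB (· ^ 2)
    simp only [eBi, eBj, eBl, hki, hkj, hkl] at this
    linear_combination this - 2 * μ * h0 - h2
  · have := hrest k₁ eA (· ^ 3)
    simp only [eAi, eAj, eAl, hki, hkj, hkl] at this
    have e : a ^ 3 + b ^ 3 + d ^ 3 = 3 * (a * b * d) := by
      rw [show d = -a - b by linarith]; ring
    have : ∑ n, k₁ n ^ 3 - ∑ n, k n ^ 3 = -6 * r ^ 3 - 3 * (a * b * d) := by
      linear_combination this - 3 * μ ^ 2 * h0 - 3 * μ * h2 - e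
    linarith
  · rw [show 1 - (2 * r ^ 3 - a * b * d) / (4 * r ^ 3)
      = (2 * r ^ 3 + a * b * d) / (4 * r ^ 3) by field_simp; ring]
    unfold focalVolume
    have hi : ∀ (c₀ : ℝ) (k' : Fin m → ℝ), IntervalIntegrable (fun t => c₀ * focal k' t) volume
        (-(Real.pi / 2)) (Real.pi / 2) := fun c₀ k' =>
      (continuous_const.mul (focal_continuous_right k')).intervalIntegrable _ _
    rw [← intervalIntegral.integral_const_mul, ← intervalIntegral.integral_const_mul,
      ← intervalIntegral.integral_add (hi _ _) (hi _ _)]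
    refine intervalIntegral.integral_mono_on (by linarith [Real.pi_pos])
      ((focal_continuous_right _).intervalIntegrable _ _) ((hi _ _).add (hi _ _)) fun t _ => ?_
    unfold focal
    have hR : ∀ k' : Fin m → ℝ, (∀ n, n ≠ i → n ≠ j → n ≠ l → k' n = k n) →
        ∏ n ∈ univ \ {i, j, l}, max (Real.cos t - k' n * Real.sin t) 0
          = ∏ n ∈ univ \ {i, j, l}, max (Real.cos t - k n * Real.sin t) 0 := fun k' hk' =>
      prod_congr rfl fun n hn => by
        simp only [mem_sdiff, mem_insert, mem_singleton, not_or] at hn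
        rw [hk' n hn.2.1 hn.2.2.1 hn.2.2.2]
    rw [prod_split_three nij njl nil', prod_split_three nij njl nil',
      prod_split_three nij njl nil', hR k₁ eA, hR k₂ eB, eAi, eAj, eAl, eBi, eBj, eBl, hki, hkj,
      hkl, ← mul_assoc _ (_ * _ * _), ← mul_assoc _ (_ * _ * _), ← add_mul]
    exact mul_le_mul_of_nonneg_right (triple_le h0 hr h2 hP.le)
      (prod_nonneg fun _ _ => le_max_right _ _)

/-- Two values give a Clifford product. -/
theorem focalVolume_two_valued {m : ℕ} (k : Fin m → ℝ) (J : Finset (Fin m)) {a : ℝ} (ha : 0 < a)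
    (hJ : ∀ i ∈ J, k i = a) (hJc : ∀ i ∉ J, k i = -a⁻¹) (hj : 1 ≤ J.card) (hjm : J.card < m)
    (hsum : ∑ i, k i = 0) :
    focalVolume k * cliffordVolume m J.card = sphereArea (m + 1) := by
  obtain ⟨N, hN⟩ : ∃ N, N = m - J.card := ⟨_, rfl⟩
  have hm0 : (0 : ℝ) < m := by exact_mod_cast (show 0 < m by omega)
  have hn0 : (0 : ℝ) < N := by exact_mod_cast (show 0 < N by omega)
  have hj0 : (0 : ℝ) < J.card := by exact_mod_cast hj
  have hcast : (N : ℝ) = m - J.card := by rw [hN, Nat.cast_sub hjm.le]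
  have hcompl : (univ \ J).card = N := by rw [Finset.card_univ_sdiff, Fintype.card_fin, hN]
  have ha2 : a ^ 2 = (N : ℝ) / J.card := by
    rw [← sum_sdiff (subset_univ J), sum_congr rfl fun i hi => hJc i (mem_sdiff.1 hi).2,
      sum_congr rfl hJ, sum_const, sum_const, hcompl, nsmul_eq_mul, nsmul_eq_mul] at hsum
    field_simp at hsum ⊢
    linarith
  set θ := Real.arctan a with hθ
  have hθ0 : 0 < θ := Real.arctan_pos.2 ha
  have hθ1 : θ < Real.pi / 2 := Real.arctan_lt_pi_div_two a
  have hcos : 0 < Real.cos θ := Real.cos_arctan_pos a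
  have hsin : 0 < Real.sin θ := Real.sin_pos_of_pos_of_lt_pi hθ0 (by linarith [Real.pi_pos])
  have htan : Real.sin θ = a * Real.cos θ := by
    have h := Real.tan_arctan a
    rw [← hθ, Real.tan_eq_sin_div_cos, div_eq_iff hcos.ne'] at h
    exact h
  have hcos2 : Real.cos θ ^ 2 = (J.card : ℝ) / m := by
    have := Real.sin_sq_add_cos_sq θ
    rw [htan, mul_pow, ha2] at this
    field_simp at this ⊢
    nlinarith
  have hsin2 : Real.sin θ ^ 2 = (N : ℝ) / m := by
    rw [htan, mul_pow, ha2, hcos2]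
    field_simp
  -- the shifted integrand
  let h : ℝ → ℝ := fun u =>
    max (Real.cos u / Real.cos θ) 0 ^ J.card * max (Real.sin u / Real.sin θ) 0 ^ N
  have hint : ∀ t, focal k t = h (t + θ) := by
    intro t
    unfold focal
    have p1 : ∏ i ∈ univ \ J, max (Real.cos t - k i * Real.sin t) 0
        = max (Real.cos t - -a⁻¹ * Real.sin t) 0 ^ N := by
      rw [← hcompl, ← prod_const]
      exact prod_congr rfl fun i hi => by rw [hJc i (mem_sdiff.1 hi).2]
    have p2 : ∏ i ∈ J, max (Real.cos t - k i * Real.sin t) 0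
        = max (Real.cos t - a * Real.sin t) 0 ^ J.card := by
      rw [← prod_const]
      exact prod_congr rfl fun i hi => by rw [hJ i hi]
    rw [← prod_sdiff (subset_univ J), p1, p2]
    have e1 : Real.cos (t + θ) / Real.cos θ = Real.cos t - a * Real.sin t := by
      rw [Real.cos_add, htan]; field_simp
    have e2 : Real.sin (t + θ) / Real.sin θ = Real.cos t - -a⁻¹ * Real.sin t := by
      rw [Real.sin_add, htan]; field_simp; ring
    simp only [h, e1, e2]
    ring
  have hcont : Continuous h := by fun_prop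
  have hzero1 : ∫ u in (-(Real.pi / 2) + θ)..0, h u = 0 := by
    refine (intervalIntegral.integral_congr (g := fun _ => (0 : ℝ)) fun u hu => ?_).trans (by simp)
    rw [Set.uIcc_of_le (by linarith)] at hu
    have hs : Real.sin u ≤ 0 :=
      Real.sin_nonpos_of_nonpos_of_neg_pi_le hu.2 (by linarith [hu.1, Real.pi_pos])
    simp [h, max_eq_right (div_nonpos_of_nonpos_of_nonneg hs hsin.le),
      zero_pow (show N ≠ 0 by omega)]
  have hzero2 : ∫ u in (Real.pi / 2)..(Real.pi / 2 + θ), h u = 0 := by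
    refine (intervalIntegral.integral_congr (g := fun _ => (0 : ℝ)) fun u hu => ?_).trans (by simp)
    rw [Set.uIcc_of_le (by linarith)] at hu
    have hs : Real.cos u ≤ 0 :=
      Real.cos_nonpos_of_pi_div_two_le_of_le hu.1 (by linarith [hu.2, Real.pi_pos])
    simp [h, max_eq_right (div_nonpos_of_nonpos_of_nonneg hs hcos.le),
      zero_pow (show J.card ≠ 0 by omega)]
  have hmid : ∫ u in (0 : ℝ)..(Real.pi / 2), h u
      = quarter J.card N / (Real.cos θ ^ J.card * Real.sin θ ^ N) := by
    rw [quarter, ← intervalIntegral.integral_div]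
    refine intervalIntegral.integral_congr fun u hu => ?_
    rw [Set.uIcc_of_le (by linarith [Real.pi_pos])] at hu
    have h1 : 0 ≤ Real.cos u := Real.cos_nonneg_of_mem_Icc ⟨by linarith [hu.1, Real.pi_pos], hu.2⟩
    have h2 : 0 ≤ Real.sin u := Real.sin_nonneg_of_mem_Icc ⟨hu.1, by linarith [hu.2, Real.pi_pos]⟩
    simp only [h, max_eq_left (div_nonneg h1 hcos.le), max_eq_left (div_nonneg h2 hsin.le),
      div_pow]
    field_simp
  have hI : focalVolume k = quarter J.card N / (Real.cos θ ^ J.card * Real.sin θ ^ N) := by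
    unfold focalVolume
    rw [intervalIntegral.integral_congr fun t _ => hint t,
      intervalIntegral.integral_comp_add_right h θ,
      ← intervalIntegral.integral_add_adjacent_intervals (hcont.intervalIntegrable _ 0)
        (hcont.intervalIntegrable 0 _),
      ← intervalIntegral.integral_add_adjacent_intervals (a := (0 : ℝ))
        (hcont.intervalIntegrable _ (Real.pi / 2)) (hcont.intervalIntegrable (Real.pi / 2) _),
      hzero1, hzero2, hmid]
    ring
  have hpow : ∀ (x : ℝ) (n : ℕ), 0 ≤ x → (x ^ 2) ^ ((n : ℝ) / 2) = x ^ n := by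
    intro x n hx
    rw [← Real.rpow_natCast x 2, ← Real.rpow_mul hx, ← Real.rpow_natCast x n]
    push_cast
    ring_nf
  have hjoin := sphereArea_join J.card N
  rw [show J.card + N + 1 = m + 1 by omega] at hjoin
  rw [hI, cliffordVolume, ← hN, ← hcos2, ← hsin2, hpow _ _ hcos.le, hpow _ _ hsin.le, ← hjoin]
  field_simp

/-- The focal integral is at most that of some Clifford product. -/
theorem exists_clifford_bound {m : ℕ} (hm : 2 ≤ m) (k : Fin m → ℝ) (hk : ∑ i, k i = 0)
    (hk2 : (m : ℝ) ≤ ∑ i, k i ^ 2) :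
    ∃ j, 1 ≤ j ∧ j < m ∧ focalVolume k * cliffordVolume m j ≤ sphereArea (m + 1) := by
  have hmR : (0 : ℝ) < m := by exact_mod_cast (show 0 < m by omega)
  set K : Set (Fin m → ℝ) := {v | ∑ i, v i = 0 ∧ ∑ i, v i ^ 2 = (m : ℝ)} with hKdef
  set l := Real.sqrt (m / ∑ i, k i ^ 2) with hl
  have hS : 0 < ∑ i, k i ^ 2 := hmR.trans_le hk2
  have hl2 : l ^ 2 = m / ∑ i, k i ^ 2 := Real.sq_sqrt (by positivity)
  have hlK : l • k ∈ K := by
    refine ⟨by simp [← mul_sum, hk], ?_⟩
    simp only [Pi.smul_apply, smul_eq_mul, mul_pow, ← mul_sum, hl2]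
    exact div_mul_cancel₀ _ hS.ne'
  have hl1 : l ≤ 1 := Real.sqrt_le_one.2 ((div_le_one hS).2 hk2)
  have hKc : IsCompact K := by
    refine Metric.isCompact_of_isClosed_isBounded ?_ ?_
    · exact (isClosed_eq (by fun_prop) continuous_const).inter
        (isClosed_eq (by fun_prop) continuous_const)
    · refine (Metric.isBounded_closedBall (x := 0) (r := Real.sqrt m)).subset fun v hv => ?_
      rw [mem_closedBall_zero_iff, pi_norm_le_iff_of_nonneg (Real.sqrt_nonneg _)]
      intro i
      refine Real.abs_le_sqrt ?_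
      rw [← hv.2]
      exact single_le_sum (f := fun i => v i ^ 2) (fun i _ => sq_nonneg _) (mem_univ i)
  obtain ⟨v₀, hv₀, hmax⟩ := hKc.exists_isMaxOn ⟨_, hlK⟩ focalVolume_continuous.continuousOn
  set K' : Set (Fin m → ℝ) := K ∩ {v | focalVolume v = focalVolume v₀} with hK'def
  have hK'c : IsCompact K' :=
    hKc.inter_right (isClosed_eq focalVolume_continuous continuous_const)
  obtain ⟨v, hv, hmin⟩ := hK'c.exists_isMinOn ⟨v₀, hv₀, rfl⟩
    (show ContinuousOn (fun v : Fin m → ℝ => ∑ i, v i ^ 3) K' from Continuous.continuousOn (by fun_prop))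
  obtain ⟨⟨hv1, hv2⟩, hveq⟩ := hv
  have htwo : ∀ i j p : Fin m, v i ≠ v j → v j ≠ v p → v i ≠ v p → False := by
    intro i j p h1 h2 h3
    obtain ⟨k₁, k₂, lam, hlam0, hlam1, s1, q1, s2, q2, hcube, hle⟩ := exists_better v h1 h2 h3
    have hk₁ : k₁ ∈ K := ⟨s1.trans hv1, q1.trans hv2⟩
    have hk₂ : k₂ ∈ K := ⟨s2.trans hv1, q2.trans hv2⟩
    have b1 : focalVolume k₁ ≤ focalVolume v₀ := hmax hk₁
    have b2 : focalVolume k₂ ≤ focalVolume v₀ := hmax hk₂
    rw [hveq] at hle
    have : focalVolume k₁ = focalVolume v₀ := by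
      nlinarith [mul_le_mul_of_nonneg_left b2 (sub_nonneg.2 hlam1)]
    have hmin' : ∑ i, v i ^ 3 ≤ ∑ i, k₁ i ^ 3 := hmin ⟨hk₁, this⟩
    linarith
  -- the larger of the two values is positive
  obtain ⟨i₀, -, hi₀⟩ := exists_max_image univ v ⟨⟨0, by omega⟩, mem_univ _⟩
  obtain ⟨i₁, -, hi₁⟩ := exists_min_image univ v ⟨⟨0, by omega⟩, mem_univ _⟩
  have hlt : v i₁ < v i₀ := by
    refine lt_of_le_of_ne (hi₀ i₁ (mem_univ _)) fun h => ?_
    have hall : ∀ i, v i = v i₀ := fun i =>
      le_antisymm (hi₀ i (mem_univ _)) (h ▸ hi₁ i (mem_univ _))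
    simp only [hall, sum_const, card_univ, Fintype.card_fin, nsmul_eq_mul] at hv1 hv2
    rw [(mul_eq_zero.1 hv1).resolve_left hmR.ne'] at hv2
    norm_num at hv2
    linarith
  have hval : ∀ i, v i = v i₀ ∨ v i = v i₁ := by
    intro i
    by_contra h
    obtain ⟨h1, h2⟩ := not_or.1 h
    exact htwo i i₀ i₁ h1 hlt.ne' h2
  set J := univ.filter fun i => v i = v i₀ with hJdef
  have hJ : ∀ i ∈ J, v i = v i₀ := fun i hi => (mem_filter.1 hi).2
  have hJc : ∀ i ∉ J, v i = v i₁ := fun i hi =>
    (hval i).resolve_left fun h => hi (mem_filter.2 ⟨mem_univ _, h⟩)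
  have hj1 : 1 ≤ J.card := card_pos.2 ⟨i₀, mem_filter.2 ⟨mem_univ _, rfl⟩⟩
  have hjm : J.card < m := by
    have : J.card < (univ : Finset (Fin m)).card :=
      card_lt_card ⟨subset_univ _, fun h => hlt.ne ((hJ i₁ (h (mem_univ _))))⟩
    simpa using this
  set x := v i₀
  set y := v i₁
  have hcompl : (univ \ J).card = m - J.card := by rw [card_univ_sdiff, Fintype.card_fin]
  have e1 : ((m - J.card : ℕ) : ℝ) * y + J.card * x = 0 := by
    rw [← hv1, ← sum_sdiff (subset_univ J), sum_congr rfl fun i hi => hJc i (mem_sdiff.1 hi).2,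
      sum_congr rfl hJ, sum_const, sum_const, hcompl, nsmul_eq_mul, nsmul_eq_mul]
  have e2 : ((m - J.card : ℕ) : ℝ) * y ^ 2 + J.card * x ^ 2 = m := by
    have p1 : ∑ i ∈ univ \ J, v i ^ 2 = ((m - J.card : ℕ) : ℝ) * y ^ 2 := by
      rw [← hcompl, ← nsmul_eq_mul, ← sum_const]
      exact sum_congr rfl fun i hi => by rw [hJc i (mem_sdiff.1 hi).2]
    have p2 : ∑ i ∈ J, v i ^ 2 = (J.card : ℝ) * x ^ 2 := by
      rw [← nsmul_eq_mul, ← sum_const]
      exact sum_congr rfl fun i hi => by rw [hJ i hi]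
    rw [← hv2, ← sum_sdiff (subset_univ J), p1, p2]
  rw [Nat.cast_sub hjm.le] at e1 e2
  have hxy : x * y = -1 := by
    refine mul_left_cancel₀ hmR.ne' ?_
    linear_combination (x + y) * e1 - e2
  have hx : 0 < x := by nlinarith
  have hy : y = -x⁻¹ := by field_simp; linarith
  refine ⟨J.card, hj1, hjm, ?_⟩
  rw [← focalVolume_two_valued v J hx hJ (fun i hi => (hJc i hi).trans hy) hj1 hjm hv1]
  refine mul_le_mul_of_nonneg_right ?_ ?_
  · rw [hveq]
    exact (focalVolume_mono (focal_le_smul k hk (Real.sqrt_nonneg _) hl1)).trans (hmax hlK)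
  · unfold cliffordVolume
    have := sphereArea_pos J.card
    have := sphereArea_pos (m - J.card)
    positivity

/-- The algebraic maximum in terms of the least Clifford volume. -/
theorem focalVolume_mul_cliffordMin_le {m : ℕ} (hm : 2 ≤ m) (k : Fin m → ℝ) (hk : ∑ i, k i = 0)
    (hk2 : (m : ℝ) ≤ ∑ i, k i ^ 2) : focalVolume k * cliffordMin m ≤ sphereArea (m + 1) := by
  obtain ⟨j, h1, h2, h⟩ := exists_clifford_bound hm k hk hk2
  refine le_trans (mul_le_mul_of_nonneg_left ?_ (focalVolume_nonneg k)) h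
  exact csInf_le ((Set.finite_Icc _ _).image _).bddBelow ⟨j, ⟨h1, by omega⟩, rfl⟩

end Vale.Agent.P224.Clifford
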