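import Vale.Agent.P224.Clifford.Pins

/-!
# P224: simultaneous diagonalisation of the metric and the second fundamental form
-/

noncomputable section

open MeasureTheory Set Matrix
open scoped RealInnerProductSpace ContDiff

namespace Vale.Agent.P224.Clifford

theorem exists_orth_diag {m : ℕ} {A : Matrix (Fin m) (Fin m) ℝ} (hA : A.IsHermitian) :
    ∃ (U : Matrix (Fin m) (Fin m) ℝ) (e : Fin m → ℝ), Uᵀ * U = 1 ∧ Uᵀ * A * U = diagonal e := by
  refine ⟨(hA.eigenvectorUnitary : Matrix (Fin m) (Fin m) ℝ), hA.eigenvalues, ?_, ?_⟩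
  · simpa [star_eq_conjTranspose] using Unitary.coe_star_mul_self hA.eigenvectorUnitary
  · have h := hA.conjStarAlgAut_star_eigenvectorUnitary
    simpa [Unitary.conjStarAlgAut_apply, star_eq_conjTranspose] using h

/-- A positive definite form and a symmetric one have a common orthonormal frame. -/
theorem exists_frame {m : ℕ} {G h : Matrix (Fin m) (Fin m) ℝ} (hG : G.PosDef) (hh : hᵀ = h) :
    ∃ (W : Matrix (Fin m) (Fin m) ℝ) (k : Fin m → ℝ),
      Wᵀ * G * W = 1 ∧ Wᵀ * h * W = diagonal k := by
  obtain ⟨U, e, hU, hUe⟩ := exists_orth_diag hG.1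
  have hdetU : U.det ≠ 0 := fun h0 => by simpa [h0] using congrArg Matrix.det hU
  have hpos : ∀ i, 0 < e i := fun i => by
    have h2 := hG.conjTranspose_mul_mul_same (B := U)
      (Matrix.mulVec_injective_of_isUnit ((isUnit_iff_isUnit_det U).2 (isUnit_iff_ne_zero.2 hdetU)))
    rw [conjTranspose_eq_transpose_of_trivial, hUe] at h2
    simpa using h2.diag_pos (i := i)
  set R := U * diagonal fun i => (√(e i))⁻¹ with hR
  have hRG : Rᵀ * G * R = 1 := by
    have : Rᵀ * G * R = diagonal (fun i => (√(e i))⁻¹) * (Uᵀ * G * U) *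
        diagonal fun i => (√(e i))⁻¹ := by
      simp only [hR, transpose_mul, diagonal_transpose, Matrix.mul_assoc]
    rw [this, hUe, diagonal_mul_diagonal, diagonal_mul_diagonal, ← diagonal_one]
    congr 1
    funext i
    have hs := Real.mul_self_sqrt (hpos i).le
    have h0 := (Real.sqrt_pos.2 (hpos i)).ne'
    field_simp
    linarith [hs, sq √(e i)]
  have hK : (Rᵀ * h * R).IsHermitian := by
    rw [IsHermitian, conjTranspose_eq_transpose_of_trivial]
    simp only [transpose_mul, transpose_transpose, hh, Matrix.mul_assoc]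
  obtain ⟨V, k, hV, hVk⟩ := exists_orth_diag hK
  refine ⟨R * V, k, ?_, ?_⟩
  · rw [transpose_mul, show Vᵀ * Rᵀ * G * (R * V) = Vᵀ * (Rᵀ * G * R) * V by
      simp only [Matrix.mul_assoc], hRG, Matrix.mul_one, hV]
  · rw [transpose_mul, show Vᵀ * Rᵀ * h * (R * V) = Vᵀ * (Rᵀ * h * R) * V by
      simp only [Matrix.mul_assoc], hVk]

namespace Immersion

variable {m : ℕ} {ι : Type} (F : Immersion m ι)

theorem contDiffAt_pos {j : ι} {u : Euc m} (hu : u ∈ F.dom j) :
    ContDiffAt ℝ ∞ (F.pos j) u :=
  (F.smooth_pos j).contDiffAt ((F.isOpen_dom j).mem_nhds hu)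

theorem second_symm {j : ι} {u : Euc m} (hu : u ∈ F.dom j) : (F.second j u)ᵀ = F.second j u := by
  ext a b
  have h := ((F.contDiffAt_pos hu).isSymmSndFDerivAt
    (by simp only [minSmoothness_of_isRCLikeNormedField]; exact WithTop.coe_le_coe.2 (le_top (a := (2 : ℕ∞))))).eq
    (basisVec m a) (basisVec m b)
  simp [second, secondForm, secondDeriv, dirDeriv, Matrix.transpose_apply, h]

/-- The tangent vector of a coordinate vector. -/
theorem sum_basisVec (v : Fin m → ℝ) :
    ∑ a, v a • basisVec m a = (WithLp.toLp 2 v : Euc m) := by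
  ext i; simp [basisVec, Pi.single_apply]

theorem gram_quad (j : ι) (u : Euc m) (v : Fin m → ℝ) :
    ∑ a, ∑ b, v a * v b * F.gram j u a b =
      ‖fderiv ℝ (F.pos j) u (WithLp.toLp 2 v)‖ ^ 2 := by
  rw [← real_inner_self_eq_norm_sq, ← sum_basisVec, map_sum, sum_inner]
  refine Finset.sum_congr rfl fun a _ => ?_
  rw [inner_sum]
  refine Finset.sum_congr rfl fun b _ => ?_
  rw [map_smul, map_smul, real_inner_smul_left, real_inner_smul_right, gram, firstForm]
  ring

theorem second_quad (j : ι) (u : Euc m) (v : Fin m → ℝ) :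
    ∑ a, ∑ b, v a * v b * F.second j u a b =
      ⟪fderiv ℝ (fderiv ℝ (F.pos j)) u (WithLp.toLp 2 v) (WithLp.toLp 2 v), F.nrm j u⟫ := by
  rw [← sum_basisVec]
  simp only [map_sum, map_smul, _root_.sum_apply, _root_.smul_apply, Finset.smul_sum, sum_inner,
    real_inner_smul_left, smul_smul, second, secondForm, secondDeriv, dirDeriv]
  rw [Finset.sum_comm]
  exact Finset.sum_congr rfl fun a _ => Finset.sum_congr rfl fun b _ => by ring

theorem dot_quad (M : Matrix (Fin m) (Fin m) ℝ) (v : Fin m → ℝ) :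
    v ⬝ᵥ (M *ᵥ v) = ∑ a, ∑ b, v a * v b * M a b := by
  simp only [dotProduct, mulVec, Finset.mul_sum]
  exact Finset.sum_congr rfl fun a _ => Finset.sum_congr rfl fun b _ => by ring

theorem gram_posDef {j : ι} {u : Euc m} (hu : u ∈ F.dom j) : (F.gram j u).PosDef := by
  refine Matrix.PosDef.of_dotProduct_mulVec_pos ?_ fun v hv => ?_
  · ext a b; simp [gram, firstForm, real_inner_comm]
  · rw [star_trivial, dot_quad, gram_quad]
    refine pow_pos (norm_pos_iff.2 fun h => hv ?_) 2
    have := F.immersive j u hu (h.trans (map_zero _).symm)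
    funext i
    simpa using congrArg (fun z : Euc m => z i) this

/-- The spectrum of the shape operator. -/
theorem exists_spectrum {j : ι} (hmin : F.IsMinimal) {u : Euc m} (hu : u ∈ F.dom j) :
    ∃ k : Fin m → ℝ, ∑ i, k i = 0 ∧ ∑ i, k i ^ 2 = F.sffSq j u ∧
      ∀ t, (F.normalForm j u t).det / (F.gram j u).det =
          ∏ i, (Real.cos t - k i * Real.sin t) ∧
        ((∀ v : Fin m → ℝ, 0 ≤ ∑ a, ∑ b, v a * v b * F.normalForm j u t a b) →
          ∀ i, 0 ≤ Real.cos t - k i * Real.sin t) := by
  obtain ⟨W, k, hG, hh⟩ := exists_frame (F.gram_posDef hu) (F.second_symm hu)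
  have hinv : (F.gram j u)⁻¹ = W * Wᵀ := by
    have h1 : (Wᵀ * F.gram j u) * W = 1 := hG
    have h2 : W * (Wᵀ * F.gram j u) = 1 := mul_eq_one_comm.1 h1
    exact Matrix.inv_eq_left_inv (by rwa [Matrix.mul_assoc])
  have hdiag : ∀ t, Wᵀ * F.normalForm j u t * W =
      diagonal fun i => Real.cos t - k i * Real.sin t := by
    intro t
    rw [normalForm, Matrix.mul_sub, Matrix.sub_mul, Matrix.mul_smul, Matrix.mul_smul,
      Matrix.smul_mul, Matrix.smul_mul, hG, hh]
    ext a b
    by_cases hab : a = b <;> simp [hab, mul_comm]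
  refine ⟨k, ?_, ?_, fun t => ⟨?_, fun hp i => ?_⟩⟩
  · have := hmin j u hu
    rw [shape, hinv, Matrix.trace_mul_cycle, ← Matrix.trace_mul_cycle, Matrix.mul_assoc,
      Matrix.trace_mul_comm, hh, trace_diagonal] at this
    exact this
  · rw [sffSq, shape, hinv, show W * Wᵀ * F.second j u * (W * Wᵀ * F.second j u) =
        W * ((Wᵀ * F.second j u * W) * (Wᵀ * F.second j u)) by simp only [Matrix.mul_assoc],
      Matrix.trace_mul_comm, Matrix.mul_assoc, hh, diagonal_mul_diagonal, trace_diagonal]
    simp only [sq]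
  · have d1 := congrArg Matrix.det (hdiag t)
    have d2 := congrArg Matrix.det hG
    rw [det_mul, det_mul, det_diagonal] at d1
    rw [det_mul, det_mul, det_one] at d2
    rw [← d1, div_eq_iff (F.gram_posDef hu).det_pos.ne']
    linear_combination -(F.normalForm j u t).det * d2
  · have e := congrFun (congrFun (hdiag t) i) i
    rw [diagonal_apply_eq] at e
    refine (hp fun a => W a i).trans_eq (Eq.trans ?_ e)
    simp only [Matrix.mul_apply, transpose_apply, Finset.sum_mul]
    rw [Finset.sum_comm]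
    exact Finset.sum_congr rfl fun b _ => Finset.sum_congr rfl fun a _ => by ring

end Immersion

theorem spectral : Spectral := by
  intro m ι F j hmin u hu
  obtain ⟨k, h0, h2, hk⟩ := F.exists_spectrum hmin hu
  refine ⟨k, h0, h2, fun t => ?_⟩
  by_cases hB : F.BeforeFocal j u t
  · obtain ⟨hdet, hpos⟩ := hk t
    have hnn := hpos hB.2
    rw [Immersion.jacobian, indicator_of_mem (show t ∈ {t | F.BeforeFocal j u t} from hB),
      ← abs_of_pos (F.gram_posDef hu).det_pos, ← abs_div, hdet,
      abs_of_nonneg (Finset.prod_nonneg fun i _ => hnn i), focal]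
    exact Finset.prod_le_prod (fun i _ => hnn i) fun i _ => le_max_left _ _
  · rw [Immersion.jacobian, indicator_of_notMem (show t ∉ {t | F.BeforeFocal j u t} from hB)]
    exact focal_nonneg k t

end Vale.Agent.P224.Clifford
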