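import Vale.Agent.P224.Clifford.Pins
import Vale.Agent.P224.Clifford.Spectral

/-!
# P224: the least volume above the equators when `|A|² ≥ m`
-/

noncomputable section

open MeasureTheory Set Matrix
open scoped RealInnerProductSpace ENNReal ContDiff

namespace Vale.Agent.P224.Clifford

open Vale.Agent.P224.Gap (sphereArea sphereArea_pos)

namespace Immersion

variable {m : ℕ} {ι : Type} (F : Immersion m ι)

theorem continuousOn_sffSq (j : ι) : ContinuousOn (F.sffSq j) (F.dom j) := by
  have ho := F.isOpen_dom j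
  have h2 : (2 : WithTop ℕ∞) ≤ ((⊤ : ℕ∞) : WithTop ℕ∞) := WithTop.coe_le_coe.2 (le_top (a := (2 : ℕ∞)))
  have hd : ContDiffOn ℝ 1 (fderiv ℝ (F.pos j)) (F.dom j) :=
    (F.smooth_pos j).fderiv_of_isOpen ho (by exact h2)
  have hdd := hd.continuousOn_fderiv_of_isOpen ho le_rfl
  have hN := (F.smooth_nrm j).continuousOn
  have hG : ContinuousOn (F.gram j) (F.dom j) := by
    refine continuousOn_pi.2 fun a => continuousOn_pi.2 fun b => ?_
    exact (hd.continuousOn.clm_apply continuousOn_const).inner
      (hd.continuousOn.clm_apply continuousOn_const)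
  have hh : ContinuousOn (F.second j) (F.dom j) := by
    refine continuousOn_pi.2 fun a => continuousOn_pi.2 fun b => ?_
    exact ((hdd.clm_apply continuousOn_const).clm_apply continuousOn_const).inner hN
  intro u hu
  have hne : (F.gram j u).det ≠ 0 := (F.gram_posDef hu).det_pos.ne'
  have hdet : ContinuousWithinAt (fun u => (F.gram j u).det) (F.dom j) u :=
    (Continuous.continuousAt (by fun_prop : Continuous fun M : Matrix (Fin m) (Fin m) ℝ => M.det)
      ).comp_continuousWithinAt (hG u hu)
  have hadj : ContinuousWithinAt (fun u => (F.gram j u).adjugate) (F.dom j) u :=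
    (Continuous.continuousAt (continuous_id.matrix_adjugate)).comp_continuousWithinAt (hG u hu)
  have hS : ContinuousWithinAt (fun u => ((F.gram j u).det)⁻¹ • (F.gram j u).adjugate *
      F.second j u) (F.dom j) u :=
    (Continuous.continuousAt (by fun_prop :
        Continuous fun p : Matrix (Fin m) (Fin m) ℝ × Matrix (Fin m) (Fin m) ℝ => p.1 * p.2)
      ).comp_continuousWithinAt (((hdet.inv₀ hne).smul hadj).prodMk (hh u hu))
  refine ((Continuous.continuousAt (by fun_prop :
    Continuous fun M : Matrix (Fin m) (Fin m) ℝ => (M * M).trace)).comp_continuousWithinAt hS).congr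
      (fun y _ => ?_) ?_ <;> simp [sffSq, shape, Matrix.inv_def]

theorem measurable_below (j : ι) : MeasurableSet (F.piece j ∩ {u | F.sffSq j u < m}) := by
  have h := ((F.continuousOn_sffSq j).isOpen_inter_preimage (F.isOpen_dom j)
    isOpen_Iio (t := Iio (m : ℝ))).measurableSet
  have e : F.piece j ∩ {u | F.sffSq j u < m} =
      F.piece j ∩ (F.dom j ∩ F.sffSq j ⁻¹' Iio (m : ℝ)) := by
    ext u; simpa using fun hu _ => F.piece_subset j hu
  rw [e]
  exact (F.measurable_piece j).inter h

/-- The inner integral is at most a focal volume. -/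
theorem inner_le (hspec : Spectral) (hmin : F.IsMinimal) {j : ι} {u : Euc m} (hu : u ∈ F.dom j) :
    ∃ k : Fin m → ℝ, ∑ i, k i = 0 ∧ ∑ i, k i ^ 2 = F.sffSq j u ∧
      ∫⁻ t in Icc (-(Real.pi / 2)) (Real.pi / 2), ENNReal.ofReal (F.jacobian j u t) ≤
        ENNReal.ofReal (focalVolume k) := by
  obtain ⟨k, h0, h2, hle⟩ := hspec m ι F j hmin u hu
  refine ⟨k, h0, h2, (lintegral_mono fun t => ENNReal.ofReal_le_ofReal (hle t)).trans_eq ?_⟩
  rw [focalVolume, intervalIntegral.integral_of_le (by linarith [Real.pi_pos]),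
    ← integral_Icc_eq_integral_Ioc, ofReal_integral_eq_lintegral_ofReal
      (focal_continuous_right k).continuousOn.integrableOn_Icc
      (ae_of_all _ fun t => focal_nonneg k t)]

end Immersion

theorem cliffordMin_nonneg (m : ℕ) : 0 ≤ cliffordMin m :=
  Real.sInf_nonneg fun x ⟨k, _, hk⟩ => hk ▸ mul_nonneg (mul_nonneg (mul_nonneg
    (Real.rpow_nonneg (by positivity) _) (Real.rpow_nonneg (by positivity) _))
    (sphereArea_pos _).le) (sphereArea_pos _).le

variable {m : ℕ} {ι : Type} [Fintype ι]

/-- Outside the part with `|A|² < m` a minimal hypersurface costs at least `a_m`. -/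
theorem defect_bound (hcone : ConeBound) (hspec : Spectral) (F : Immersion m ι) (hm : 2 ≤ m)
    (hmin : F.IsMinimal) :
    ENNReal.ofReal (cliffordMin m * sphereArea m) ≤
      ENNReal.ofReal (sphereArea m) * F.vol +
        ENNReal.ofReal (cliffordMin m - sphereArea m) * F.volBelow := by
  set a := cliffordMin m with ha
  set S := sphereArea m with hS
  set T := sphereArea (m + 1) with hT
  have ha0 : 0 ≤ a := cliffordMin_nonneg m
  have hS0 : 0 < S := sphereArea_pos m
  have hT0 : 0 < T := sphereArea_pos (m + 1)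
  set J : ι → Euc m → ℝ≥0∞ := fun j u =>
    ∫⁻ t in Icc (-(Real.pi / 2)) (Real.pi / 2), ENNReal.ofReal (F.jacobian j u t)
  set d : ι → Euc m → ℝ≥0∞ := fun j u => ENNReal.ofReal (F.density j u)
  have hsum : ENNReal.ofReal T ≤ ∑ j, ∫⁻ u in F.piece j, d j u * J j u := hcone m ι F hm hmin
  have hj : ∀ j, (∫⁻ u in F.piece j, d j u * J j u) * ENNReal.ofReal (a * S) ≤
      ENNReal.ofReal T * (ENNReal.ofReal S * (∫⁻ u in F.piece j, d j u) +
        ENNReal.ofReal (a - S) * ∫⁻ u in F.piece j ∩ {u | F.sffSq j u < m}, d j u) := by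
    intro j
    set A := F.piece j ∩ {u | F.sffSq j u < m}
    have hA : MeasurableSet A := F.measurable_below j
    rw [← lintegral_inter_add_sdiff (fun u => d j u * J j u) (F.piece j) hA,
      ← lintegral_inter_add_sdiff (d j) (F.piece j) hA,
      inter_eq_self_of_subset_right (inter_subset_left : A ⊆ F.piece j), add_mul]
    rw [← lintegral_mul_const' _ _ ENNReal.ofReal_ne_top,
      ← lintegral_mul_const' _ _ ENNReal.ofReal_ne_top]
    have h1 : ∫⁻ u in A, d j u * J j u * ENNReal.ofReal (a * S) ≤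
        ENNReal.ofReal T * ENNReal.ofReal a * ∫⁻ u in A, d j u := by
      rw [← lintegral_const_mul' _ _ (ENNReal.mul_ne_top ENNReal.ofReal_ne_top ENNReal.ofReal_ne_top)]
      refine setLIntegral_mono' hA fun u hu => ?_
      obtain ⟨k, h0, -, hle⟩ := F.inner_le hspec hmin (F.piece_subset j hu.1)
      have h := mul_le_mul_of_nonneg_right (focalVolume_mul_sphereArea_le k h0) ha0
      calc d j u * J j u * ENNReal.ofReal (a * S)
          ≤ d j u * ENNReal.ofReal (focalVolume k) * ENNReal.ofReal (a * S) := by gcongr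
        _ = d j u * ENNReal.ofReal (focalVolume k * (a * S)) := by
            rw [mul_assoc, ← ENNReal.ofReal_mul (focalVolume_nonneg k)]
        _ ≤ d j u * ENNReal.ofReal (T * a) := by
            exact mul_le_mul' le_rfl (ENNReal.ofReal_le_ofReal (by linarith))
        _ = _ := by rw [ENNReal.ofReal_mul hT0.le]; ring
    have h2 : ∫⁻ u in F.piece j \ A, d j u * J j u * ENNReal.ofReal (a * S) ≤
        ENNReal.ofReal T * ENNReal.ofReal S * ∫⁻ u in F.piece j \ A, d j u := by
      rw [← lintegral_const_mul' _ _ (ENNReal.mul_ne_top ENNReal.ofReal_ne_top ENNReal.ofReal_ne_top)]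
      refine setLIntegral_mono' (MeasurableSet.diff (F.measurable_piece j) hA) fun u hu => ?_
      obtain ⟨k, h0, h2, hle⟩ := F.inner_le hspec hmin (F.piece_subset j hu.1)
      have hge : (m : ℝ) ≤ ∑ i, k i ^ 2 := h2 ▸ le_of_not_gt fun h => hu.2 ⟨hu.1, h⟩
      have h := mul_le_mul_of_nonneg_right (focalVolume_mul_cliffordMin_le hm k h0 hge) hS0.le
      calc d j u * J j u * ENNReal.ofReal (a * S)
          ≤ d j u * ENNReal.ofReal (focalVolume k) * ENNReal.ofReal (a * S) := by gcongr
        _ = d j u * ENNReal.ofReal (focalVolume k * (a * S)) := by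
            rw [mul_assoc, ← ENNReal.ofReal_mul (focalVolume_nonneg k)]
        _ ≤ d j u * ENNReal.ofReal (T * S) := by
            exact mul_le_mul' le_rfl (ENNReal.ofReal_le_ofReal (by linarith))
        _ = _ := by rw [ENNReal.ofReal_mul hT0.le]; ring
    refine (add_le_add h1 h2).trans ?_
    have haS : ENNReal.ofReal a ≤ ENNReal.ofReal S + ENNReal.ofReal (a - S) :=
      (ENNReal.ofReal_le_ofReal (by linarith)).trans ENNReal.ofReal_add_le
    calc ENNReal.ofReal T * ENNReal.ofReal a * (∫⁻ u in A, d j u) +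
          ENNReal.ofReal T * ENNReal.ofReal S * ∫⁻ u in F.piece j \ A, d j u
        ≤ ENNReal.ofReal T * (ENNReal.ofReal S + ENNReal.ofReal (a - S)) * (∫⁻ u in A, d j u) +
          ENNReal.ofReal T * ENNReal.ofReal S * ∫⁻ u in F.piece j \ A, d j u := by gcongr
      _ = _ := by ring
  refine (ENNReal.mul_le_mul_iff_right (ENNReal.ofReal_pos.2 hT0).ne' ENNReal.ofReal_ne_top).1 ?_
  calc ENNReal.ofReal T * ENNReal.ofReal (a * S)
      ≤ (∑ j, ∫⁻ u in F.piece j, d j u * J j u) * ENNReal.ofReal (a * S) :=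
        mul_le_mul' hsum le_rfl
    _ ≤ ∑ j, ENNReal.ofReal T * (ENNReal.ofReal S * (∫⁻ u in F.piece j, d j u) +
        ENNReal.ofReal (a - S) * ∫⁻ u in F.piece j ∩ {u | F.sffSq j u < m}, d j u) := by
        rw [Finset.sum_mul]; exact Finset.sum_le_sum fun j _ => hj j
    _ = _ := by
        rw [Immersion.vol, Immersion.volBelow, ← Finset.mul_sum, Finset.sum_add_distrib,
          ← Finset.mul_sum, ← Finset.mul_sum]

/-- With `|A|² ≥ m` the volume is at least the least Clifford value. -/
theorem clifford_bound (hcone : ConeBound) (hspec : Spectral) (F : Immersion m ι) (hm : 2 ≤ m)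
    (hmin : F.IsMinimal) (hge : ∀ j, ∀ u ∈ F.piece j, (m : ℝ) ≤ F.sffSq j u) :
    ENNReal.ofReal (cliffordMin m) ≤ F.vol := by
  have h := defect_bound hcone hspec F hm hmin
  have h0 : F.volBelow = 0 := Finset.sum_eq_zero fun j _ => by
    have he : F.piece j ∩ {u | F.sffSq j u < m} = ∅ :=
      eq_empty_of_forall_notMem fun u hu => (not_lt.2 (hge j u hu.1)) hu.2
    rw [he, Measure.restrict_empty, lintegral_zero_measure]
  rw [h0, mul_zero, add_zero, ENNReal.ofReal_mul (cliffordMin_nonneg m), mul_comm] at h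
  exact (ENNReal.mul_le_mul_iff_right (ENNReal.ofReal_pos.2 (sphereArea_pos m)).ne'
    ENNReal.ofReal_ne_top).1 h

/-- Q1 for constant `|A|²`. -/
theorem constant_bound (hcone : ConeBound) (hspec : Spectral) (hconst : ConstantCurvature)
    (F : Immersion m ι) (hm : 2 ≤ m) (hmin : F.IsMinimal) {c : ℝ} (hc0 : c ≠ 0)
    (hc : ∀ j, ∀ u ∈ F.dom j, F.sffSq j u = c) : ENNReal.ofReal (cliffordMin m) ≤ F.vol :=
  clifford_bound hcone hspec F hm hmin fun j u hu => by
    rw [hc j u (F.piece_subset j hu)]
    exact (hconst m ι F j c hm hmin (hc j) u (F.piece_subset j hu)).resolve_left hc0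

end Vale.Agent.P224.Clifford
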