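import Vale.Agent.P224.Clifford.Defs
import Vale.Agent.P224.Clifford.Extremal

/-!
# P224: the statements of the blocks of the covering inequality
-/

noncomputable section

open MeasureTheory Set
open scoped RealInnerProductSpace ENNReal

namespace Vale.Agent.P224.Clifford

open Vale.Agent.P224.Gap (sphereArea)

/-- Every point of the sphere is reached by a normal geodesic before its first focal point. -/
def Covered : Prop :=
  ∀ (m : ℕ) (ι : Type) [Fintype ι] (F : Immersion m ι), 2 ≤ m → F.IsMinimal →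
    ∀ q : Euc (m + 2), ‖q‖ = 1 → ∃ j, ∃ u ∈ F.piece j, ∃ t, F.BeforeFocal j u t ∧
      q = Real.cos t • F.pos j u + Real.sin t • F.nrm j u

/-- The area of the sphere is at most the integral of the Jacobian of the normal map. -/
def ConeBound : Prop :=
  ∀ (m : ℕ) (ι : Type) [Fintype ι] (F : Immersion m ι), 2 ≤ m → F.IsMinimal →
    ENNReal.ofReal (sphereArea (m + 1)) ≤
      ∑ j, ∫⁻ u in F.piece j, ENNReal.ofReal (F.density j u) *
        ∫⁻ t in Icc (-(Real.pi / 2)) (Real.pi / 2), ENNReal.ofReal (F.jacobian j u t)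

/-- The Jacobian is a focal product of a trace-free spectrum. -/
def Spectral : Prop :=
  ∀ (m : ℕ) (ι : Type) (F : Immersion m ι) (j : ι), F.IsMinimal → ∀ u ∈ F.dom j,
    ∃ k : Fin m → ℝ, ∑ i, k i = 0 ∧ ∑ i, k i ^ 2 = F.sffSq j u ∧
      ∀ t, F.jacobian j u t ≤ focal k t

/-- A constant `|A|²` vanishes or is at least `m` (Simons). -/
def ConstantCurvature : Prop :=
  ∀ (m : ℕ) (ι : Type) (F : Immersion m ι) (j : ι) (c : ℝ), 2 ≤ m → F.IsMinimal →
    (∀ u ∈ F.dom j, F.sffSq j u = c) → ∀ u ∈ F.dom j, c = 0 ∨ (m : ℝ) ≤ c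

end Vale.Agent.P224.Clifford
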