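import Vale.Agent.P224.Clifford.Calc
import Vale.Agent.P224.Clifford.Cone
import Vale.Agent.P224.Clifford.Spectral

/-!
# P224: a constant `|A|²` on a chart of a minimal immersion vanishes or is at least `m` (Simons)
-/

noncomputable section

open Matrix Filter Topology
open scoped RealInnerProductSpace ContDiff

namespace Vale.Agent.P224.Clifford

namespace Local

variable {m : ℕ} {ι : Type} (F : Immersion m ι) (j : ι)

/-- The matrix of the differential of the position. -/
def dmat (y : Euc m) : Matrix (Fin (m + 2)) (Fin m) ℝ := fun i a =>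
  fderiv ℝ (F.pos j) y (Immersion.basisVec m a) i

/-- The matrix of the differential of the normal. -/
def dnrm (y : Euc m) : Matrix (Fin (m + 2)) (Fin m) ℝ := fun i a =>
  fderiv ℝ (F.nrm j) y (Immersion.basisVec m a) i

/-- The position and the normal, as columns. -/
def frame (y : Euc m) : Matrix (Fin (m + 2)) (Fin 2) ℝ := fun i p =>
  ![F.pos j y i, F.nrm j y i] p

/-- The tangential derivations in coordinates. -/
def tmat (y : Euc m) : Matrix (Fin m) (Fin (m + 2)) ℝ := (F.gram j y)⁻¹ * (dmat F j y)ᵀ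

/-- The parameter vector of the `i`-th tangential derivation. -/
def tvec (i : Fin (m + 2)) (y : Euc m) : Euc m := WithLp.toLp 2 fun a => tmat F j y a i

theorem sum_mul_eq_inner {n : ℕ} (v w : Euc n) : ∑ i, v i * w i = ⟪v, w⟫ := by
  simp [PiLp.inner_apply, mul_comm]

theorem transpose_mul_dmat (y : Euc m) : (dmat F j y)ᵀ * dmat F j y = F.gram j y := by
  ext a b
  rw [Matrix.mul_apply]
  exact sum_mul_eq_inner _ _

theorem transpose_mul_dnrm {y : Euc m} (hy : y ∈ F.dom j) :
    (dmat F j y)ᵀ * dnrm F j y = -F.second j y := by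
  ext a b
  rw [Matrix.mul_apply]
  exact (sum_mul_eq_inner _ _).trans (Cone.inner_deriv_deriv F j hy _ _)

theorem gram_det_ne {y : Euc m} (hy : y ∈ F.dom j) : (F.gram j y).det ≠ 0 :=
  (F.gram_posDef hy).det_pos.ne'

theorem tmat_mul_dmat {y : Euc m} (hy : y ∈ F.dom j) : tmat F j y * dmat F j y = 1 := by
  rw [tmat, Matrix.mul_assoc, transpose_mul_dmat,
    Matrix.nonsing_inv_mul _ (isUnit_iff_ne_zero.2 (gram_det_ne F j hy))]

theorem tmat_mul_dnrm {y : Euc m} (hy : y ∈ F.dom j) :
    tmat F j y * dnrm F j y = -F.shape j y := by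
  rw [tmat, Matrix.mul_assoc, transpose_mul_dnrm F j hy, Matrix.mul_neg, Immersion.shape]

theorem transpose_mul_frame {y : Euc m} (hy : y ∈ F.dom j) :
    (dmat F j y)ᵀ * frame F j y = 0 := by
  ext a p
  rw [Matrix.mul_apply, Matrix.zero_apply]
  fin_cases p
  · refine (sum_mul_eq_inner (fderiv ℝ (F.pos j) y _) (F.pos j y)).trans ?_
    rw [real_inner_comm]
    exact (Cone.inner_pos_deriv F j hy _).1
  · exact (sum_mul_eq_inner (fderiv ℝ (F.pos j) y _) (F.nrm j y)).trans (F.deriv_nrm j y hy _)

theorem tmat_mul_frame {y : Euc m} (hy : y ∈ F.dom j) : tmat F j y * frame F j y = 0 := by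
  rw [tmat, Matrix.mul_assoc, transpose_mul_frame F j hy, Matrix.mul_zero]

theorem frame_orth {y : Euc m} (hy : y ∈ F.dom j) : (frame F j y)ᵀ * frame F j y = 1 := by
  have h1 : ⟪F.pos j y, F.pos j y⟫ = 1 := by
    rw [real_inner_self_eq_norm_sq, F.norm_pos j y hy, one_pow]
  have h2 : ⟪F.nrm j y, F.nrm j y⟫ = 1 := by
    rw [real_inner_self_eq_norm_sq, F.norm_nrm j y hy, one_pow]
  have h3 : ⟪F.pos j y, F.nrm j y⟫ = 0 := F.pos_nrm j y hy
  have h4 : ⟪F.nrm j y, F.pos j y⟫ = 0 := by rw [real_inner_comm]; exact h3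
  ext p q
  rw [Matrix.mul_apply]
  fin_cases p <;> fin_cases q <;> simp [frame, sum_mul_eq_inner, h1, h2, h3, h4, -inner_self_eq_norm_sq_to_K]

theorem dmat_mul_tmat {y : Euc m} (hy : y ∈ F.dom j) :
    dmat F j y * tmat F j y = 1 - frame F j y * (frame F j y)ᵀ := by
  have hLQ : Matrix.fromRows (tmat F j y) (frame F j y)ᵀ *
      Matrix.fromCols (dmat F j y) (frame F j y) = 1 := by
    have h : (frame F j y)ᵀ * dmat F j y = 0 := by
      simpa using congrArg Matrix.transpose (transpose_mul_frame F j hy)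
    rw [Matrix.fromRows_mul_fromCols, tmat_mul_dmat F j hy, h, frame_orth F j hy,
      tmat_mul_frame F j hy, Matrix.fromBlocks_one]
  have hQL := (Matrix.mul_eq_one_comm_of_equiv finSumFinEquiv).1 hLQ
  rw [Matrix.fromCols_mul_fromRows] at hQL
  exact eq_sub_of_add_eq hQL

theorem tangent_entry {y : Euc m} (hy : y ∈ F.dom j) (i k : Fin (m + 2)) :
    (dmat F j y * tmat F j y) k i =
      (if i = k then 1 else 0) - F.pos j y i * F.pos j y k - F.nrm j y i * F.nrm j y k := by
  rw [dmat_mul_tmat F j hy, Matrix.sub_apply, Matrix.one_apply, Matrix.mul_apply]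
  simp only [Fin.sum_univ_two, frame, Matrix.transpose_apply, eq_comm (a := k)]
  simp only [Matrix.cons_val_zero, Matrix.cons_val_one]
  ring

theorem apply_tvec {V : Type} [NormedAddCommGroup V] [NormedSpace ℝ V] (L : Euc m →L[ℝ] V)
    (i : Fin (m + 2)) (y : Euc m) :
    L (tvec F j i y) = ∑ a, tmat F j y a i • L (Immersion.basisVec m a) := by
  rw [tvec, ← Immersion.sum_basisVec, map_sum]
  simp only [map_smul]

theorem fderiv_coord {n : ℕ} {f : Euc m → Euc n} {y : Euc m} (hf : DifferentiableAt ℝ f y)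
    (k : Fin n) (v : Euc m) : fderiv ℝ (fun z => f z k) y v = fderiv ℝ f y v k := by
  have h : HasFDerivAt (fun z => f z k) ((EuclideanSpace.proj (𝕜 := ℝ) k).comp (fderiv ℝ f y)) y :=
    (EuclideanSpace.proj (𝕜 := ℝ) k).hasFDerivAt.comp y hf.hasFDerivAt
  rw [h.fderiv]
  rfl

theorem contDiffOn_dmat (i : Fin (m + 2)) (a : Fin m) :
    ContDiffOn ℝ ∞ (fun y => dmat F j y i a) (F.dom j) :=
  contDiffOn_euclidean.1
    (((F.smooth_pos j).fderiv_of_isOpen (F.isOpen_dom j) (by norm_num)).clm_apply contDiffOn_const) i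

theorem contDiffOn_det {n : ℕ} {A : Euc m → Matrix (Fin n) (Fin n) ℝ} {s : Set (Euc m)}
    (hA : ∀ a b, ContDiffOn ℝ ∞ (fun y => A y a b) s) :
    ContDiffOn ℝ ∞ (fun y => (A y).det) s := by
  simp only [Matrix.det_apply']
  exact ContDiffOn.sum fun σ _ => contDiffOn_const.mul (contDiffOn_prod fun i _ => hA _ _)

theorem contDiffOn_gram (a b : Fin m) :
    ContDiffOn ℝ ∞ (fun y => F.gram j y a b) (F.dom j) := by
  have h := (F.smooth_pos j).fderiv_of_isOpen (F.isOpen_dom j) (m := ∞) (by norm_num)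
  exact (h.clm_apply contDiffOn_const).inner ℝ (h.clm_apply contDiffOn_const)

theorem contDiffOn_tmat (a : Fin m) (i : Fin (m + 2)) :
    ContDiffOn ℝ ∞ (fun y => tmat F j y a i) (F.dom j) := by
  simp only [tmat, Matrix.mul_apply, Matrix.inv_def, Ring.inverse_eq_inv', Matrix.smul_apply,
    smul_eq_mul, Matrix.transpose_apply, Matrix.adjugate_apply]
  refine ContDiffOn.sum fun b _ => ContDiffOn.mul (ContDiffOn.mul ?_ ?_) (contDiffOn_dmat F j i b)
  · exact (contDiffOn_det (contDiffOn_gram F j)).inv fun y hy => gram_det_ne F j hy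
  · refine contDiffOn_det fun c d => ?_
    simp only [Matrix.updateRow_apply]
    split_ifs
    · exact contDiffOn_const
    · exact contDiffOn_gram F j c d

theorem contDiffOn_tvec (i : Fin (m + 2)) : ContDiffOn ℝ ∞ (tvec F j i) (F.dom j) :=
  contDiffOn_euclidean.2 fun a => contDiffOn_tmat F j a i

/-- Extension by zero from the chart. -/
def extend (u : F.dom j → ℝ) : Euc m → ℝ := Function.extend Subtype.val u 0

theorem extend_eventuallyEq {u : F.dom j → ℝ} {g : Euc m → ℝ} (h : ∀ y, u y = g y.1)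
    (x : F.dom j) : extend F j u =ᶠ[𝓝 x.1] g := by
  filter_upwards [(F.isOpen_dom j).mem_nhds x.2] with y hy
  exact (Subtype.val_injective.extend_apply u 0 ⟨y, hy⟩).trans (h ⟨y, hy⟩)

theorem extend_apply (u : F.dom j → ℝ) (x : F.dom j) : extend F j u x.1 = u x :=
  Subtype.val_injective.extend_apply u 0 x

theorem fderiv_extend {u : F.dom j → ℝ} {g : Euc m → ℝ} (h : ∀ y, u y = g y.1) (x : F.dom j) :
    fderiv ℝ (extend F j u) x.1 = fderiv ℝ g x.1 :=
  (extend_eventuallyEq F j h x).fderiv_eq

/-- Smoothness on the chart. -/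
def Smooth (u : F.dom j → ℝ) : Prop := ContDiffOn ℝ ∞ (extend F j u) (F.dom j)

theorem smooth_of {u : F.dom j → ℝ} {g : Euc m → ℝ} (h : ∀ y, u y = g y.1)
    (hg : ContDiffOn ℝ ∞ g (F.dom j)) : Smooth F j u :=
  hg.congr fun y hy => (extend_eventuallyEq F j h ⟨y, hy⟩).eq_of_nhds

theorem differentiableAt_extend {u : F.dom j → ℝ} (hu : Smooth F j u) (x : F.dom j) :
    DifferentiableAt ℝ (extend F j u) x.1 :=
  (hu.differentiableOn (by norm_num)).differentiableAt ((F.isOpen_dom j).mem_nhds x.2)

/-- The tangential derivation. -/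
def D (i : Fin (m + 2)) (u : F.dom j → ℝ) (x : F.dom j) : ℝ :=
  fderiv ℝ (extend F j u) x.1 (tvec F j i x.1)

theorem differentiableAt_pos (x : F.dom j) : DifferentiableAt ℝ (F.pos j) x.1 :=
  ((F.smooth_pos j).differentiableOn (by norm_num)).differentiableAt
    ((F.isOpen_dom j).mem_nhds x.2)

theorem differentiableAt_nrm (x : F.dom j) : DifferentiableAt ℝ (F.nrm j) x.1 :=
  ((F.smooth_nrm j).differentiableOn (by norm_num)).differentiableAt
    ((F.isOpen_dom j).mem_nhds x.2)

theorem D_pos (i k : Fin (m + 2)) (x : F.dom j) :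
    D F j i (fun y => F.pos j y.1 k) x = (if i = k then 1 else 0)
      - F.pos j x.1 i * F.pos j x.1 k - F.nrm j x.1 i * F.nrm j x.1 k := by
  rw [← tangent_entry F j x.2, D, fderiv_extend F j (g := fun z => F.pos j z k) (fun _ => rfl),
    fderiv_coord (differentiableAt_pos F j x), apply_tvec, Matrix.mul_apply]
  simp [dmat, mul_comm]

theorem D_nrm (i k : Fin (m + 2)) (x : F.dom j) :
    D F j i (fun y => F.nrm j y.1 k) x = (dnrm F j x.1 * tmat F j x.1) k i := by
  rw [D, fderiv_extend F j (g := fun z => F.nrm j z k) (fun _ => rfl),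
    fderiv_coord (differentiableAt_nrm F j x), apply_tvec, Matrix.mul_apply]
  simp [dnrm, mul_comm]

theorem smooth_D (i : Fin (m + 2)) {u : F.dom j → ℝ} (hu : Smooth F j u) :
    Smooth F j (D F j i u) :=
  smooth_of F j (g := fun y => fderiv ℝ (extend F j u) y (tvec F j i y)) (fun _ => rfl)
    ((ContDiffOn.fderiv_of_isOpen hu (F.isOpen_dom j) (by norm_num)).clm_apply
      (contDiffOn_tvec F j i))

/-- The commutator of two derivations. -/
def bracket (i k : Fin (m + 2)) (x : Euc m) : Euc m :=
  fderiv ℝ (tvec F j k) x (tvec F j i x) - fderiv ℝ (tvec F j i) x (tvec F j k x)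

theorem D_D_sub {u : F.dom j → ℝ} (hu : Smooth F j u) (i k : Fin (m + 2)) (x : F.dom j) :
    D F j i (D F j k u) x - D F j k (D F j i u) x =
      fderiv ℝ (extend F j u) x.1 (bracket F j i k x.1) := by
  have ho := (F.isOpen_dom j).mem_nhds x.2
  have hA : DifferentiableAt ℝ (fderiv ℝ (extend F j u)) x.1 :=
    ((ContDiffOn.fderiv_of_isOpen hu (F.isOpen_dom j) (m := ∞) (by norm_num)).differentiableOn
      (by norm_num)).differentiableAt ho
  have key : ∀ a b, D F j a (D F j b u) x =
      fderiv ℝ (extend F j u) x.1 (fderiv ℝ (tvec F j b) x.1 (tvec F j a x.1)) +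
        fderiv ℝ (fderiv ℝ (extend F j u)) x.1 (tvec F j a x.1) (tvec F j b x.1) := by
    intro a b
    have hT : DifferentiableAt ℝ (tvec F j b) x.1 :=
      ((contDiffOn_tvec F j b).differentiableOn (by norm_num)).differentiableAt ho
    show fderiv ℝ (extend F j (D F j b u)) x.1 (tvec F j a x.1) = _
    rw [fderiv_extend F j (u := D F j b u)
      (g := fun y => fderiv ℝ (extend F j u) y (tvec F j b y)) (fun _ => rfl),
      fderiv_clm_apply hA hT]
    simp
  have hsym : fderiv ℝ (fderiv ℝ (extend F j u)) x.1 (tvec F j i x.1) (tvec F j k x.1) =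
      fderiv ℝ (fderiv ℝ (extend F j u)) x.1 (tvec F j k x.1) (tvec F j i x.1) :=
    ((hu.contDiffAt ho).isSymmSndFDerivAt (by
      simp only [minSmoothness_of_isRCLikeNormedField]
      exact WithTop.coe_le_coe.2 (le_top (a := (2 : ℕ∞))))).eq _ _
  rw [key, key, bracket, map_sub, hsym]
  ring

theorem D_comm {u : F.dom j → ℝ} (hu : Smooth F j u) (i k : Fin (m + 2)) (x : F.dom j) :
    D F j i (D F j k u) x - D F j k (D F j i u) x =
      ∑ l, (D F j i (fun y => (if k = l then 1 else 0) - F.pos j y.1 k * F.pos j y.1 l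
            - F.nrm j y.1 k * F.nrm j y.1 l) x -
          D F j k (fun y => (if i = l then 1 else 0) - F.pos j y.1 i * F.pos j y.1 l
            - F.nrm j y.1 i * F.nrm j y.1 l) x) * D F j l u x := by
  set V := bracket F j i k x.1
  have hP : ∀ l a, (fun y : F.dom j => (if a = l then (1 : ℝ) else 0)
      - F.pos j y.1 a * F.pos j y.1 l - F.nrm j y.1 a * F.nrm j y.1 l) =
        D F j a fun y => F.pos j y.1 l := fun l a => funext fun y => (D_pos F j a l y).symm
  have hs : ∀ l, Smooth F j fun y => F.pos j y.1 l := fun l =>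
    smooth_of F j (g := fun z => F.pos j z l) (fun _ => rfl)
      (contDiffOn_euclidean.1 (F.smooth_pos j) l)
  have hl : ∀ l, D F j i (fun y => (if k = l then (1 : ℝ) else 0) - F.pos j y.1 k * F.pos j y.1 l
        - F.nrm j y.1 k * F.nrm j y.1 l) x -
      D F j k (fun y => (if i = l then 1 else 0) - F.pos j y.1 i * F.pos j y.1 l
        - F.nrm j y.1 i * F.nrm j y.1 l) x = fderiv ℝ (F.pos j) x.1 V l := fun l => by
    rw [hP, hP, D_D_sub F j (hs l), fderiv_extend F j (g := fun z => F.pos j z l) (fun _ => rfl),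
      fderiv_coord (differentiableAt_pos F j x)]
  have hV : ∑ l, fderiv ℝ (F.pos j) x.1 V l • tvec F j l x.1 = V := by
    have e : ∀ l, fderiv ℝ (F.pos j) x.1 V l = (dmat F j x.1 *ᵥ fun a => V a) l := by
      intro l
      have hv : V = ∑ a, V a • Immersion.basisVec m a := by
        rw [Immersion.sum_basisVec]
      conv_lhs => rw [hv, map_sum]
      simp [Matrix.mulVec, dotProduct, dmat, mul_comm]
    ext a
    have h := congrFun (congrArg (fun A => A *ᵥ fun b => V b) (tmat_mul_dmat F j x.2)) a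
    simp only [← Matrix.mulVec_mulVec, Matrix.one_mulVec] at h
    rw [← h]
    simp [tvec, e, Matrix.mulVec, dotProduct, mul_comm]
  rw [D_D_sub F j hu, show bracket F j i k x.1 = V from rfl]
  conv_lhs => rw [← hV, map_sum]
  refine Finset.sum_congr rfl fun l _ => ?_
  rw [map_smul, hl, smul_eq_mul]
  rfl

theorem smooth_add {u v : F.dom j → ℝ} (hu : Smooth F j u) (hv : Smooth F j v) :
    Smooth F j fun y => u y + v y :=
  smooth_of F j (g := fun y => extend F j u y + extend F j v y)
    (fun y => by simp only [extend_apply]) (hu.add hv)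

theorem smooth_mul {u v : F.dom j → ℝ} (hu : Smooth F j u) (hv : Smooth F j v) :
    Smooth F j fun y => u y * v y :=
  smooth_of F j (g := fun y => extend F j u y * extend F j v y)
    (fun y => by simp only [extend_apply]) (hu.mul hv)

/-- The calculus of a chart of a minimal immersion. -/
def pointCalc (hmin : F.IsMinimal) : PointCalc m (F.dom j) where
  pos x i := F.pos j x.1 i
  nrm x i := F.nrm j x.1 i
  Smooth := Smooth F j
  D := D F j
  smooth_const c := smooth_of F j (g := fun _ => c) (fun _ => rfl) contDiffOn_const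
  smooth_add _ _ hu hv := smooth_add F j hu hv
  smooth_mul _ _ hu hv := smooth_mul F j hu hv
  smooth_D i _ hu := smooth_D F j i hu
  smooth_pos i := smooth_of F j (g := fun z => F.pos j z i) (fun _ => rfl)
    (contDiffOn_euclidean.1 (F.smooth_pos j) i)
  smooth_nrm i := smooth_of F j (g := fun z => F.nrm j z i) (fun _ => rfl)
    (contDiffOn_euclidean.1 (F.smooth_nrm j) i)
  D_const i c x := by
    rw [D, fderiv_extend F j (g := fun _ => c) (fun _ => rfl)]
    simp
  D_add i u v hu hv x := by
    rw [D, fderiv_extend F j (g := fun y => extend F j u y + extend F j v y)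
      (fun y => by simp only [extend_apply]), fderiv_fun_add (differentiableAt_extend F j hu x)
      (differentiableAt_extend F j hv x)]
    rfl
  D_mul i u v hu hv x := by
    rw [D, fderiv_extend F j (g := fun y => extend F j u y * extend F j v y)
      (fun y => by simp only [extend_apply]), fderiv_fun_mul (differentiableAt_extend F j hu x)
      (differentiableAt_extend F j hv x)]
    simp only [_root_.add_apply, _root_.smul_apply, smul_eq_mul, extend_apply, D]
    ring
  pos_pos x := by
    rw [sum_mul_eq_inner, real_inner_self_eq_norm_sq, F.norm_pos j _ x.2, one_pow]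
  nrm_nrm x := by
    rw [sum_mul_eq_inner, real_inner_self_eq_norm_sq, F.norm_nrm j _ x.2, one_pow]
  pos_nrm x := (sum_mul_eq_inner _ _).trans (F.pos_nrm j _ x.2)
  pos_D u _ x := by
    have h : ∀ a, ∑ i, F.pos j x.1 i * tmat F j x.1 a i = 0 := fun a => by
      have := congrFun (congrFun (tmat_mul_frame F j x.2) a) 0
      simpa [Matrix.mul_apply, frame, mul_comm] using this
    simp only [D, apply_tvec, smul_eq_mul, Finset.mul_sum]
    rw [Finset.sum_comm]
    simp only [← mul_assoc, ← Finset.sum_mul, h, zero_mul, Finset.sum_const_zero]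
  nrm_D u _ x := by
    have h : ∀ a, ∑ i, F.nrm j x.1 i * tmat F j x.1 a i = 0 := fun a => by
      have := congrFun (congrFun (tmat_mul_frame F j x.2) a) 1
      simpa [Matrix.mul_apply, frame, mul_comm] using this
    simp only [D, apply_tvec, smul_eq_mul, Finset.mul_sum]
    rw [Finset.sum_comm]
    simp only [← mul_assoc, ← Finset.sum_mul, h, zero_mul, Finset.sum_const_zero]
  D_pos := D_pos F j
  D_comm i k _ hu x := D_comm F j hu i k x
  minimal x := by
    have h := hmin j x.1 x.2
    simp only [D_nrm]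
    change (dnrm F j x.1 * tmat F j x.1).trace = 0
    rw [Matrix.trace_mul_comm, tmat_mul_dnrm F j x.2, Matrix.trace_neg, h, neg_zero]

theorem calc_sffSq (hmin : F.IsMinimal) (x : F.dom j) :
    (pointCalc F j hmin).sffSq x = F.sffSq j x.1 := by
  rw [PointCalc.sffSq_eq]
  have e : ∀ a b, (pointCalc F j hmin).sff a b x = (dnrm F j x.1 * tmat F j x.1) b a := fun a b =>
    D_nrm F j a b x
  simp only [e]
  change ((dnrm F j x.1 * tmat F j x.1)ᵀ * (dnrm F j x.1 * tmat F j x.1)ᵀ).trace = _
  rw [← Matrix.transpose_mul, Matrix.trace_transpose, Matrix.mul_assoc, Matrix.trace_mul_comm,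
    Matrix.mul_assoc, Matrix.mul_assoc, ← Matrix.mul_assoc (tmat F j x.1) (dnrm F j x.1),
    tmat_mul_dnrm F j x.2, Immersion.sffSq, Matrix.neg_mul, Matrix.mul_neg, neg_neg]

end Local

/-- A constant `|A|²` vanishes or is at least `m`. -/
theorem constantCurvature : ConstantCurvature := by
  intro m ι F j c _ hmin hc u hu
  set S := Local.pointCalc F j hmin
  have hs : S.sffSq = fun _ => c := funext fun x => by rw [Local.calc_sffSq, hc x.1 x.2]
  have h := S.simons (⟨u, hu⟩ : F.dom j)
  have hl : ∀ i, S.D i S.sffSq = fun _ => (0 : ℝ) := fun i => by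
    rw [hs]; exact funext (S.D_const i c)
  have hlap : S.lap S.sffSq (⟨u, hu⟩ : F.dom j) = 0 := by
    simp only [PointCalc.lap, hl, S.D_const, Finset.sum_const_zero]
  have hnn : 0 ≤ c := by
    have h0 : 0 ≤ S.sffSq (⟨u, hu⟩ : F.dom j) :=
      Finset.sum_nonneg fun _ _ => Finset.sum_nonneg fun _ _ => sq_nonneg _
    rwa [hs] at h0
  rw [hlap, hs] at h
  rcases hnn.eq_or_lt with h0 | hp
  · exact Or.inl h0.symm
  · exact Or.inr (by nlinarith)

end Vale.Agent.P224.Clifford
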