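import Vale.Agent.P224.Clifford.Defs

/-!
# P224: the minimal Clifford torus in `S³` as parametrised data
-/

noncomputable section

open MeasureTheory Set
open scoped RealInnerProductSpace ContDiff

namespace Vale.Agent.P224.Clifford.Torus

/-- The coordinate functional. -/
def co (i : Fin 2) : Euc 2 →L[ℝ] ℝ := EuclideanSpace.proj i

/-- The coordinate vectors of `ℝ⁴`. -/
def ax (i : Fin 4) : Euc 4 := EuclideanSpace.single i 1

/-- The point of the circle of radius `1 / √2` in the plane of `ax i`, `ax j`. -/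
def circ (i j : Fin 4) (t : ℝ) : Euc 4 :=
  (√2)⁻¹ • (Real.cos t • ax i + Real.sin t • ax j)

/-- The velocity of the circle. -/
def vel (i j : Fin 4) (t : ℝ) : Euc 4 :=
  (√2)⁻¹ • (-Real.sin t • ax i + Real.cos t • ax j)

/-- The position. -/
def pos (u : Euc 2) : Euc 4 := circ 0 1 (u 0) + circ 2 3 (u 1)

/-- The normal. -/
def nrm (u : Euc 2) : Euc 4 := circ 0 1 (u 0) - circ 2 3 (u 1)

/-- The differential of the position. -/
def dpos (u : Euc 2) : Euc 2 →L[ℝ] Euc 4 :=
  (co 0).smulRight (vel 0 1 (u 0)) + (co 1).smulRight (vel 2 3 (u 1))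

theorem hasDerivAt_circ (i j : Fin 4) (t : ℝ) : HasDerivAt (circ i j) (vel i j t) t :=
  (((Real.hasDerivAt_cos t).smul_const (ax i)).add
    ((Real.hasDerivAt_sin t).smul_const (ax j))).const_smul ((√2)⁻¹)

theorem hasDerivAt_vel (i j : Fin 4) (t : ℝ) : HasDerivAt (vel i j) (-circ i j t) t := by
  have h := (((Real.hasDerivAt_sin t).neg.smul_const (ax i)).add
    ((Real.hasDerivAt_cos t).smul_const (ax j))).const_smul ((√2)⁻¹)
  refine h.congr_deriv ?_
  simp only [circ, neg_smul, ← smul_neg, neg_add]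

theorem hasFDerivAt_pos (u : Euc 2) : HasFDerivAt pos (dpos u) u := by
  have h := ((hasDerivAt_circ 0 1 (co 0 u)).hasFDerivAt.comp u (co 0).hasFDerivAt).add
    ((hasDerivAt_circ 2 3 (co 1 u)).hasFDerivAt.comp u (co 1).hasFDerivAt)
  refine h.congr_fderiv ?_
  ext v : 1
  simp [dpos, co]

theorem fderiv_pos : fderiv ℝ pos = dpos := funext fun u => (hasFDerivAt_pos u).fderiv

theorem second_apply (u v w : Euc 2) :
    fderiv ℝ (fderiv ℝ pos) u v w =
      (v 0 * w 0) • (-circ 0 1 (u 0)) + (v 1 * w 1) • (-circ 2 3 (u 1)) := by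
  rw [fderiv_pos]
  have g0 := (hasDerivAt_vel 0 1 (co 0 u)).hasFDerivAt.comp u (co 0).hasFDerivAt
  have g1 := (hasDerivAt_vel 2 3 (co 1 u)).hasFDerivAt.comp u (co 1).hasFDerivAt
  have h := (((ContinuousLinearMap.smulRightL ℝ (Euc 2) (Euc 4) (co 0)).hasFDerivAt).comp u g0).add
    (((ContinuousLinearMap.smulRightL ℝ (Euc 2) (Euc 4) (co 1)).hasFDerivAt).comp u g1)
  have e := (h.congr_of_eventuallyEq (f₁ := dpos) (Filter.Eventually.of_forall fun x => rfl)).fderiv
  rw [e]
  simp [co, smul_smul, mul_comm]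

theorem inner_ax (i j : Fin 4) : ⟪ax i, ax j⟫ = if i = j then (1 : ℝ) else 0 := by
  simp [ax, EuclideanSpace.inner_single_left, Pi.single_apply, eq_comm]

theorem half : (√2)⁻¹ * (√2)⁻¹ = (1 / 2 : ℝ) := by
  rw [← mul_inv, Real.mul_self_sqrt (by norm_num)]; norm_num

theorem inner_tables (a b : ℝ) :
    ⟪circ 0 1 a, circ 0 1 a⟫ = (1 / 2 : ℝ) ∧ ⟪circ 2 3 b, circ 2 3 b⟫ = (1 / 2 : ℝ) ∧
    ⟪circ 0 1 a, circ 2 3 b⟫ = 0 ∧ ⟪circ 2 3 b, circ 0 1 a⟫ = 0 ∧
    ⟪vel 0 1 a, vel 0 1 a⟫ = (1 / 2 : ℝ) ∧ ⟪vel 2 3 b, vel 2 3 b⟫ = (1 / 2 : ℝ) ∧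
    ⟪vel 0 1 a, vel 2 3 b⟫ = 0 ∧ ⟪vel 2 3 b, vel 0 1 a⟫ = 0 ∧
    ⟪vel 0 1 a, circ 0 1 a⟫ = 0 ∧ ⟪vel 2 3 b, circ 2 3 b⟫ = 0 ∧
    ⟪vel 0 1 a, circ 2 3 b⟫ = 0 ∧ ⟪vel 2 3 b, circ 0 1 a⟫ = 0 := by
  refine ⟨?_, ?_, ?_, ?_, ?_, ?_, ?_, ?_, ?_, ?_, ?_, ?_⟩ <;>
    simp only [circ, vel, inner_add_left, inner_add_right, real_inner_smul_left,
      real_inner_smul_right, inner_ax, Fin.reduceEq, if_false, if_true, mul_zero, mul_one,
      add_zero, zero_add] <;>
    first
      | linear_combination half + (√2)⁻¹ * (√2)⁻¹ * Real.sin_sq_add_cos_sq a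
      | linear_combination half + (√2)⁻¹ * (√2)⁻¹ * Real.sin_sq_add_cos_sq b
      | ring

theorem norm_eq_one_of_inner {x : Euc 4} (h : ⟪x, x⟫ = (1 : ℝ)) : ‖x‖ = 1 := by
  rw [real_inner_self_eq_norm_sq] at h
  exact (sq_eq_one_iff.1 h).resolve_right (by linarith [norm_nonneg x])

theorem contDiff_coord (i : Fin 2) : ContDiff ℝ ∞ fun u : Euc 2 => u i := (co i).contDiff

theorem contDiff_circ (i j : Fin 4) (k : Fin 2) :
    ContDiff ℝ ∞ fun u : Euc 2 => circ i j (u k) :=
  ((((contDiff_coord k).cos).smul contDiff_const).add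
    (((contDiff_coord k).sin).smul contDiff_const)).const_smul ((√2)⁻¹)

/-- One period. -/
def square : Set (Euc 2) := {u | ∀ i, u i ∈ Ico (-Real.pi) Real.pi}

theorem compact_range : IsCompact (pos '' univ) ∧ pos '' univ = pos '' square := by
  have hper : pos '' univ = pos '' square := by
    refine subset_antisymm ?_ (image_mono (subset_univ _))
    rintro _ ⟨u, -, rfl⟩
    refine ⟨WithLp.toLp 2 fun i => toIcoMod Real.two_pi_pos (-Real.pi) (u i), fun i => ?_, ?_⟩
    · have := toIcoMod_mem_Ico Real.two_pi_pos (-Real.pi) (u i)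
      simp only [show -Real.pi + 2 * Real.pi = Real.pi by ring] at this
      simpa using this
    · have hm : ∀ i, toIcoMod Real.two_pi_pos (-Real.pi) (u i) =
          u i - toIcoDiv Real.two_pi_pos (-Real.pi) (u i) * (2 * Real.pi) := fun i => by
        rw [← self_sub_toIcoDiv_zsmul, zsmul_eq_mul]
      simp only [pos, circ, PiLp.toLp_apply, hm, Real.cos_sub_int_mul_two_pi,
        Real.sin_sub_int_mul_two_pi]
  refine ⟨?_, hper⟩
  have hc : IsCompact (pos '' Metric.closedBall (0 : Euc 2) (4 * Real.pi)) :=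
    (isCompact_closedBall _ _).image
      ((contDiff_circ 0 1 0).add (contDiff_circ 2 3 1)).continuous
  refine hc.of_isClosed_subset ?_ ?_ |> fun h => h
  · have : pos '' univ = pos '' Metric.closedBall (0 : Euc 2) (4 * Real.pi) := by
      refine subset_antisymm ?_ (image_mono (subset_univ _))
      rw [hper]
      refine image_mono fun u hu => ?_
      rw [mem_closedBall_zero_iff, EuclideanSpace.norm_eq]
      refine (Real.sqrt_le_left (by positivity)).2 ?_
      have h : ∀ i, ‖u i‖ ^ 2 ≤ Real.pi ^ 2 := fun i => by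
        rw [Real.norm_eq_abs, sq_abs]; nlinarith [(hu i).1, (hu i).2]
      simp only [Fin.sum_univ_two]
      nlinarith [h 0, h 1, Real.pi_pos]
    rw [this]; exact hc.isClosed
  · rw [hper]
    refine image_mono fun u hu => ?_
    rw [mem_closedBall_zero_iff, EuclideanSpace.norm_eq]
    refine (Real.sqrt_le_left (by positivity)).2 ?_
    have h : ∀ i, ‖u i‖ ^ 2 ≤ Real.pi ^ 2 := fun i => by
      rw [Real.norm_eq_abs, sq_abs]; nlinarith [(hu i).1, (hu i).2]
    simp only [Fin.sum_univ_two]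
    nlinarith [h 0, h 1, Real.pi_pos]

/-- The Clifford torus. -/
def torus : Immersion 2 (Fin 1) where
  dom _ := univ
  piece _ := square
  pos _ := pos
  nrm _ := nrm
  piece_subset _ := subset_univ _
  measurable_piece _ := by
    have : square = ⋂ i : Fin 2, (co i) ⁻¹' Ico (-Real.pi) Real.pi := by
      ext u; simp [square, co]
    rw [this]
    exact MeasurableSet.iInter fun i => (co i).continuous.measurable measurableSet_Ico
  isPatch _ :=
  { isOpen := isOpen_univ
    smooth := ((contDiff_circ 0 1 0).add (contDiff_circ 2 3 1)).contDiffOn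
    smooth_normal := ((contDiff_circ 0 1 0).sub (contDiff_circ 2 3 1)).contDiffOn
    norm_eq u _ := norm_eq_one_of_inner (by
      obtain ⟨h1, h2, h3, h4, -⟩ := inner_tables (u 0) (u 1)
      simp only [pos, inner_add_left, inner_add_right, h1, h2, h3, h4]; norm_num)
    norm_normal u _ := norm_eq_one_of_inner (by
      obtain ⟨h1, h2, h3, h4, -⟩ := inner_tables (u 0) (u 1)
      simp only [nrm, inner_sub_left, inner_sub_right, h1, h2, h3, h4]; norm_num)
    orth u _ := by
      obtain ⟨h1, h2, h3, h4, -⟩ := inner_tables (u 0) (u 1)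
      simp only [pos, nrm, inner_add_left, inner_sub_right, h1, h2, h3, h4]; norm_num
    deriv_orth u _ v := by
      obtain ⟨-, -, -, -, -, -, -, -, h1, h2, h3, h4⟩ := inner_tables (u 0) (u 1)
      rw [fderiv_pos]
      simp [dpos, co, nrm, inner_add_left, inner_sub_right, real_inner_smul_left, h1, h2, h3, h4]
    injective u _ := by
      rw [fderiv_pos]
      refine (injective_iff_map_eq_zero _).2 fun v hv => ?_
      obtain ⟨-, -, -, -, h1, h2, h3, h4, -⟩ := inner_tables (u 0) (u 1)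
      have a := congrArg (fun z => ⟪z, vel 0 1 (u 0)⟫) hv
      have b := congrArg (fun z => ⟪z, vel 2 3 (u 1)⟫) hv
      have hA : vel 0 1 (u 0) ≠ 0 := fun h => by norm_num [h] at h1
      have hB : vel 2 3 (u 1) ≠ 0 := fun h => by norm_num [h] at h2
      simp [dpos, co, inner_add_left, real_inner_smul_left, h1, h2, h3, h4, hA, hB] at a b
      ext i
      fin_cases i <;> simp [a, b] }
  compact_image := by
    rw [iUnion_const, ← compact_range.2]
    exact compact_range.1
  nonempty_image := by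
    rw [iUnion_const, ← compact_range.2]
    exact ⟨pos 0, 0, trivial, rfl⟩
  dom_image _ := by rw [iUnion_const, ← compact_range.2]

theorem gram_eq (u : Euc 2) : torus.gram 0 u = Matrix.diagonal fun _ => (1 / 2 : ℝ) := by
  obtain ⟨-, -, -, -, h1, h2, h3, h4, -⟩ := inner_tables (u 0) (u 1)
  have n1 := h1
  have n2 := h2
  rw [real_inner_self_eq_norm_sq] at n1 n2
  ext a b
  change (inner ℝ (fderiv ℝ pos u (Immersion.basisVec 2 a))
    (fderiv ℝ pos u (Immersion.basisVec 2 b) : Euc 4) : ℝ) = _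
  rw [fderiv_pos]
  fin_cases a <;> fin_cases b <;>
    simp [dpos, co, Immersion.basisVec, n1, n2, h3, h4]

theorem second_eq (u : Euc 2) :
    torus.second 0 u = Matrix.diagonal ![(-1 / 2 : ℝ), 1 / 2] := by
  obtain ⟨h1, h2, h3, h4, -⟩ := inner_tables (u 0) (u 1)
  have n1 := h1
  have n2 := h2
  rw [real_inner_self_eq_norm_sq] at n1 n2
  ext a b
  change (inner ℝ (fderiv ℝ (fderiv ℝ pos) u (Immersion.basisVec 2 a) (Immersion.basisVec 2 b))
    (nrm u) : ℝ) = _
  rw [second_apply]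
  fin_cases a <;> fin_cases b <;>
    simp [Immersion.basisVec, nrm, inner_sub_right, inner_add_left, inner_neg_left, n1, n2, h3, h4,
      neg_div]

theorem shape_eq (u : Euc 2) : torus.shape 0 u = Matrix.diagonal ![(-1 : ℝ), 1] := by
  rw [Immersion.shape, gram_eq, second_eq,
    Matrix.inv_eq_left_inv (B := Matrix.diagonal fun _ => (2 : ℝ)) (by simp),
    Matrix.diagonal_mul_diagonal]
  congr 1; funext i; fin_cases i <;> norm_num

theorem isMinimal : torus.IsMinimal := by
  intro j u _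
  rw [Subsingleton.elim j 0, shape_eq]
  simp [Matrix.trace_diagonal, Fin.sum_univ_two]

theorem sffSq_eq (j : Fin 1) (u : Euc 2) : torus.sffSq j u = 2 := by
  rw [Subsingleton.elim j 0, Immersion.sffSq, shape_eq, Matrix.diagonal_mul_diagonal]
  norm_num [Matrix.trace_diagonal, Fin.sum_univ_two]

end Vale.Agent.P224.Clifford.Torus
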